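import Vale.Agent.P261Z.NM.Nf

/-!
# P261, block NM: cochains are a base change; cochains of an algebra as a ring
-/

set_option linter.all false

namespace P261.NM

open P261.Cs Act Act.Mod

universe u v

variable {k R R' G ι : Type} [CommRing k] [CommRing R] [Algebra k R] [CommRing R'] [Algebra k R']
  [Group G] [TopologicalSpace G] {A : Act k R G ι} {A' : Act k R' G ι} {I J : Type}

section Tens

variable [IsTopologicalGroup G] [IsNoetherianRing R] [IsAdicComplete A.m R] {M : Type u}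
  [AddCommGroup M] [Module R M] (V : A.Mod M)

/-- relations between the images of elements of `M` come from relations in `M` -/
theorem rel (i : I) {a : ℕ} {c : Fin a → A.Gam I} {x : Fin a → M}
    (h : ∑ j, c j • V.vx i (x j) = 0) : ∃ (b : ℕ) (q : Fin b → Fin a → R) (e : Fin b → A.Gam I),
      (∀ l, ∑ j, q l j • x j = 0) ∧ ∀ j, c j = ∑ l, e l * A.vx i (q l j) := by
  obtain ⟨b, q, hq⟩ := Submodule.fg_iff_exists_fin_generating_family.1
    (IsNoetherian.noetherian (LinearMap.ker (Fintype.linearCombination R x)))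
  obtain ⟨f, h1, h2⟩ := lift_lc (m := A.m) (Fintype.linearCombination R q)
    (f := fun (g : I → G) j => A.φ (g i)⁻¹ ((c j).1 g))
    (fun j => A.lc_φ (by fun_prop) (c j).2.1) fun g => by
      have h3 := congrArg (fun F : V.Coch I => V.ρ (g i)⁻¹ (F.1 g)) h
      simp only [Submodule.coe_sum, Finset.sum_apply, map_sum, smul_val, V.semi, V.vx_val, inv_ρ,
        Submodule.coe_zero, Pi.zero_apply, map_zero] at h3
      rwa [Fintype.range_linearCombination, hq, LinearMap.mem_ker, Fintype.linearCombination_apply]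
  refine ⟨b, q, fun l => ⟨fun g => A.φ (g i) (f (fun n => (g i)⁻¹ * g n) l),
    A.lc_φ (by fun_prop) (lc_comp (h1 l) (by fun_prop)), fun γ g => ?_⟩,
    fun l => hq.le (Submodule.subset_span ⟨l, rfl⟩), fun j => Subtype.ext (funext fun g => ?_)⟩
  · simp only [A.φ_mul, mul_inv_rev, mul_assoc, inv_mul_cancel_left]
  · have h3 := congrFun (h2 fun n => (g i)⁻¹ * g n) j
    rw [(c j).2.2, inv_mul_cancel, inv_one, φ_one, Fintype.linearCombination_apply,
      Finset.sum_apply] at h3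
    rw [← A.φ_inv (g i) ((c j).1 g), ← h3, map_sum, AddSubmonoidClass.coe_finset_sum,
      Finset.sum_apply]
    exact Finset.sum_congr rfl fun l _ => map_mul _ _ _

omit [IsNoetherianRing R] [IsAdicComplete A.m R] in
theorem coch_ext (i : I) {Q : Type v} [AddCommGroup Q] [Module (A.Gam I) Q]
    {c c' : V.Coch I →ₗ[A.Gam I] Q} (h : ∀ x, c (V.vx i x) = c' (V.vx i x)) : c = c' :=
  LinearMap.ext fun F => by
    obtain ⟨a, e, x, rfl⟩ := gen_top V i F
    simp only [map_sum, map_smul, h]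

/-- cochains are the base change of `M` along the vertex map -/
theorem tens_lift (i : I) {Q : Type v} [AddCommGroup Q] [Module (A.Gam I) Q]
    (b : M →ₛₗ[A.vx i] Q) : ∃ c : V.Coch I →ₗ[A.Gam I] Q, ∀ x, c (V.vx i x) = b x := by
  have h1 : Function.Surjective (Finsupp.linearCombination (A.Gam I) (V.vx i)) := fun F => by
    obtain ⟨a, e, x, rfl⟩ := gen_top V i F
    exact ⟨∑ j, Finsupp.single (x j) (e j), by simp⟩
  have h2 : LinearMap.ker (Finsupp.linearCombination (A.Gam I) (V.vx i)) ≤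
      LinearMap.ker (Finsupp.linearCombination (A.Gam I) b) := fun f hf => by
    rw [LinearMap.mem_ker, Finsupp.linearCombination_apply, Finsupp.sum, ← Finset.sum_coe_sort,
      ← f.support.equivFin.symm.sum_comp] at hf ⊢
    obtain ⟨n, q, e, h3, h4⟩ := rel V i hf
    simp only [h4, Finset.sum_smul, mul_smul, ← map_smulₛₗ b]
    rw [Finset.sum_comm]
    simp only [← Finset.smul_sum, ← map_sum, h3, map_zero, smul_zero, Finset.sum_const_zero]
  refine ⟨((LinearMap.ker _).liftQ _ h2).comp (LinearMap.quotKerEquivOfSurjective _ h1).symm.toLinearMap,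
    fun x => ?_⟩
  have h3 : V.vx i x = Finsupp.linearCombination (A.Gam I) (V.vx i) (Finsupp.single x 1) := by simp
  rw [h3, LinearMap.comp_apply, LinearEquiv.coe_coe, LinearMap.quotKerEquivOfSurjective_symm_apply]
  simp

end Tens

variable {AA : Type u} [CommRing AA] [Algebra R AA]

/-- the group acts by ring maps -/
class Act.Mod.IsAlg (V : A.Mod AA) : Prop where
  mul : ∀ g x y, V.ρ g (x * y) = V.ρ g x * V.ρ g y
  one : ∀ g, V.ρ g 1 = 1

theorem cts_mul {m : Ideal R} {Y : Type} [TopologicalSpace Y] {F F' : Y → AA} (h : F ∈ Cts m Y AA)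
    (h' : F' ∈ Cts m Y AA) : F * F' ∈ Cts m Y AA := by
  refine cts_ind (P := fun F => F * F' ∈ Cts m Y AA) (by simp) (fun a b ha hb => ?_)
    (fun f hf x => ?_) h
  · exact add_mul a b F' ▸ add_mem ha hb
  · have := cts_smul hf (cts_semi (fun _ h => h) (LinearMap.mulLeft R x) h')
    simp only [LinearMap.mulLeft_apply, ← smul_mul_assoc] at this
    exact this

namespace Act.Mod

variable (V : A.Mod AA) [V.IsAlg]

/-- the action by ring maps -/
def ρR (g : G) : AA →+* AA := ⟨⟨⟨V.ρ g, IsAlg.one g⟩, IsAlg.mul g⟩, map_zero _, map_add _⟩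

theorem ρR_apply (g : G) (x : AA) : V.ρR g x = V.ρ g x := rfl

theorem ρ_alg (g : G) (r : R) : V.ρ g (algebraMap R AA r) = algebraMap R AA (A.φ g r) := by
  rw [Algebra.algebraMap_eq_smul_one, V.semi, IsAlg.one, Algebra.algebraMap_eq_smul_one]

/-- cochains as a subring -/
def CochR (I : Type) : Subring ((I → G) → AA) :=
  { (V.Coch I).toAddSubgroup with
    mul_mem' := fun h h' => ⟨cts_mul h.1 h'.1, fun γ g => by
      rw [Pi.mul_apply, h.2, h'.2, Pi.mul_apply, IsAlg.mul]⟩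
    one_mem' := ⟨cts_const 1, fun γ _ => (IsAlg.one γ).symm⟩ }

instance : CommRing (V.Coch I) :=
  { (inferInstance : AddCommGroup (V.Coch I)), (inferInstance : CommRing (V.CochR I)) with }

variable {V}

theorem mul_val (F F' : V.Coch I) (g) : (F * F').1 g = F.1 g * F'.1 g := rfl
theorem one_val (g) : (1 : V.Coch I).1 g = 1 := rfl
theorem pow_val (F : V.Coch I) (n : ℕ) (g) : (F ^ n).1 g = F.1 g ^ n := rfl

instance : Algebra (A.Gam I) (V.Coch I) :=
  Algebra.ofModule (fun _ _ _ => Subtype.ext (funext fun _ => smul_mul_assoc _ _ _))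
    fun _ _ _ => Subtype.ext (funext fun _ => mul_smul_comm _ _ _)

theorem alg_val (a : A.Gam I) (g) : (algebraMap _ (V.Coch I) a).1 g = algebraMap R AA (a.1 g) :=
  (Algebra.algebraMap_eq_smul_one _).symm

variable {χ : I → Option ι}

noncomputable instance : CommRing (V.Loc χ) :=
  { (inferInstance : AddCommGroup (V.Loc χ)),
    (inferInstance : CommRing (LocalizedModule (A.Den χ) (V.Coch I))) with }

theorem fr_mul_fr (F F' : V.Coch I) (s s' : A.Den χ) :
    fr F s * fr F' s' = fr (F * F') (s * s') := LocalizedModule.mk_mul_mk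

theorem fr_one : (fr 1 1 : V.Loc χ) = 1 :=
  (OreLocalization.one_def (S := A.Den χ) (X := V.Coch I)).symm

theorem fr_pow (F : V.Coch I) (s : A.Den χ) (n : ℕ) : fr F s ^ n = fr (F ^ n) (s ^ n) :=
  LocalizedModule.mk_pow n F s

noncomputable instance : Algebra (A.Gam I) (V.Loc χ) :=
  Algebra.ofModule (fun a x y => by
    obtain ⟨F, s, rfl⟩ := fr_surj x
    obtain ⟨F', s', rfl⟩ := fr_surj y
    rw [smul_fr, fr_mul_fr, fr_mul_fr, smul_fr, smul_mul_assoc]) fun a x y => by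
    obtain ⟨F, s, rfl⟩ := fr_surj x
    obtain ⟨F', s', rfl⟩ := fr_surj y
    rw [smul_fr, fr_mul_fr, fr_mul_fr, smul_fr, mul_smul_comm]

noncomputable instance : Algebra k (V.Loc χ) :=
  Algebra.ofModule (fun a => smul_mul_assoc (A.cst I a)) fun a => mul_smul_comm (A.cst I a)

variable (V)

/-- the map at the vertex `i` -/
def vxR (i : I) : AA →+* V.Coch I :=
  ⟨⟨⟨V.vx i, Subtype.ext (funext fun _ => IsAlg.one _)⟩,
    fun _ _ => Subtype.ext (funext fun _ => IsAlg.mul _ _ _)⟩, map_zero _, map_add _⟩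

theorem vxR_apply (i : I) (x : AA) : V.vxR i x = V.vx i x := rfl

theorem vxR_alg (i : I) (r : R) : V.vxR i (algebraMap R AA r) = algebraMap _ _ (A.vx i r) :=
  Subtype.ext (funext fun g => (V.ρ_alg _ _).trans (alg_val (A.vx i r) g).symm)

/-- precomposition -/
def pullR (f : I → J) : V.Coch I →+* V.Coch J :=
  ⟨⟨⟨V.pull f, rfl⟩, fun _ _ => rfl⟩, rfl, fun _ _ => rfl⟩

theorem pullR_apply (f : I → J) (F : V.Coch I) : V.pullR f F = V.pull f F := rfl

theorem pull_vx (f : I → J) (i : I) (x : AA) : V.pull f (V.vx i x) = V.vx (f i) x := rfl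

/-- evaluation -/
def evR (g : I → G) : V.Coch I →+* AA := ⟨⟨⟨fun F => F.1 g, rfl⟩, fun _ _ => rfl⟩, rfl, fun _ _ => rfl⟩

/-- fractions with denominator one -/
noncomputable def toLoc (χ : I → Option ι) : V.Coch I →+* V.Loc χ :=
  ⟨⟨⟨fun F => fr F 1, fr_one⟩, fun F F' => by rw [fr_mul_fr, mul_one]⟩, zero_fr _,
    fun F F' => fr_add F F' 1⟩

theorem toLoc_apply (F : V.Coch I) : V.toLoc χ F = fr F 1 := rfl

theorem toLoc_alg (a : A.Gam I) : V.toLoc χ (algebraMap _ _ a) = algebraMap _ _ a := by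
  rw [Algebra.algebraMap_eq_smul_one, Algebra.algebraMap_eq_smul_one, ← fr_one, smul_fr]
  rfl

theorem alg_k (a : k) : algebraMap k (V.Loc χ) a = algebraMap _ _ (A.cst I a) := rfl

variable {V} in
theorem den_mul_fr (F : V.Coch I) (s : A.Den χ) : algebraMap _ _ s.1 * fr F s = V.toLoc χ F := by
  rw [← Algebra.smul_def, smul_fr, toLoc_apply, ← fr_cancel F 1 s, mul_one]

theorem isUnit_den (s : A.Den χ) : IsUnit (algebraMap _ (V.Loc χ) s.1) :=
  IsUnit.of_mul_eq_one _ ((den_mul_fr 1 s).trans (map_one _))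

/-- precomposition -/
noncomputable def lpullR (f : I → J) (χ : J → Option ι) : V.Loc (χ ∘ f) →+* V.Loc χ where
  toFun := V.lpull f χ
  map_one' := (congrArg (V.lpull f χ) fr_one.symm).trans fr_one
  map_mul' x y := by
    obtain ⟨F, s, rfl⟩ := fr_surj x
    obtain ⟨F', s', rfl⟩ := fr_surj y
    rw [fr_mul_fr, lpull_fr, lpull_fr, lpull_fr, fr_mul_fr]
    rfl
  map_zero' := map_zero _
  map_add' := map_add _

theorem lpullR_apply (f : I → J) (χ : J → Option ι) (x) : V.lpullR f χ x = V.lpull f χ x := rfl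

theorem lpullR_toLoc (f : I → J) (χ : J → Option ι) (F) :
    V.lpullR f χ (V.toLoc _ F) = V.toLoc χ (V.pullR f F) := rfl

variable {V} {S : Type v} [CommRing S]

theorem loc_ext {c c' : V.Loc χ →+* S} (h : ∀ F, c (V.toLoc χ F) = c' (V.toLoc χ F)) : c = c' :=
  RingHom.ext fun x => by
    obtain ⟨F, s, rfl⟩ := fr_surj x
    refine ((V.isUnit_den s).map c).mul_left_cancel ?_
    rw [← map_mul, den_mul_fr, h, ← den_mul_fr F s, map_mul, ← toLoc_alg, h]

/-- the universal property of the ring of fractions -/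
theorem loc_lift (c : V.Coch I →+* S)
    (h : ∀ i j, χ i = some j → IsUnit (c (V.vxR i (algebraMap R AA (A.u j))))) :
    ∃ c' : V.Loc χ →+* S, ∀ F, c' (V.toLoc χ F) = c F := by
  have h1 : ∀ s : A.Den χ, IsUnit (c (algebraMap _ _ s.1)) := fun ⟨s, hs⟩ => by
    induction hs using Submonoid.closure_induction with
    | mem _ h' => obtain ⟨i, j, e, rfl⟩ := h'; exact V.vxR_alg i _ ▸ h i j e
    | one => simp
    | mul a b _ _ ha hb => simpa only [map_mul] using ha.mul hb
  letI := (V.toLoc χ).toAlgebra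
  have : IsLocalization ((A.Den χ).map (algebraMap _ (V.Coch I))) (V.Loc χ) := by
    refine (isLocalization_iff _ _).2 ⟨?_, fun x => ?_, fun {F F'} e => ?_⟩
    · rintro ⟨_, s, hs, rfl⟩
      exact (V.toLoc_alg s).symm ▸ V.isUnit_den ⟨s, hs⟩
    · obtain ⟨F, s, rfl⟩ := fr_surj x
      refine ⟨⟨F, _, s, s.2, rfl⟩, (mul_comm _ _).trans ?_⟩
      exact (congrArg (· * _) (V.toLoc_alg s.1)).trans (den_mul_fr F s)
    · obtain ⟨t, ht⟩ := fr_eq.1 e
      exact ⟨⟨_, t, t.2, rfl⟩, by simpa [Algebra.smul_def] using ht⟩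
  exact ⟨IsLocalization.lift (M := (A.Den χ).map (algebraMap _ (V.Coch I))) (g := c)
    (by rintro ⟨_, s, hs, rfl⟩; exact h1 ⟨s, hs⟩), IsLocalization.lift_eq _⟩

variable [IsTopologicalGroup G]

theorem ring_ext (i : I) {c c' : V.Coch I →+* S}
    (h : ∀ a, c (algebraMap (A.Gam I) _ a) = c' (algebraMap _ _ a))
    (h' : ∀ x, c (V.vxR i x) = c' (V.vxR i x)) : c = c' := RingHom.ext fun F => by
  obtain ⟨a, e, x, rfl⟩ := gen_top V i F
  simp only [map_sum, Algebra.smul_def, map_mul, h, ← vxR_apply, h']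

/-- the ring of cochains is the pushout -/
theorem ring_lift [IsNoetherianRing R] [IsAdicComplete A.m R] (i : I) (a : A.Gam I →+* S)
    (b : AA →+* S) (h : ∀ r, b (algebraMap R AA r) = a (A.vx i r)) :
    ∃ c : V.Coch I →+* S, (∀ e, c (algebraMap _ _ e) = a e) ∧ ∀ x, c (V.vxR i x) = b x := by
  letI := a.toAlgebra
  obtain ⟨c, hc⟩ := tens_lift V i (Q := S) ⟨⟨b, map_add b⟩, fun r x => by
    change b _ = a _ * b x
    rw [Algebra.smul_def, map_mul, h]⟩
  have h1 : c 1 = 1 := by rw [← map_one (V.vxR i), vxR_apply, hc]; exact map_one b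
  refine ⟨⟨⟨⟨c, h1⟩, fun F F' => ?_⟩, map_zero c, map_add c⟩, fun e => ?_, hc⟩
  · obtain ⟨n, e, x, rfl⟩ := gen_top V i F
    obtain ⟨n', e', x', rfl⟩ := gen_top V i F'
    simp only [Finset.sum_mul_sum, map_sum, smul_mul_smul_comm, map_smul, ← vxR_apply, ← map_mul]
    simp only [vxR_apply, hc]
    exact Finset.sum_congr rfl fun _ _ => Finset.sum_congr rfl fun _ _ => congrArg _ (map_mul b _ _)
  · change c _ = _
    rw [Algebra.algebraMap_eq_smul_one, map_smul, h1]
    exact mul_one _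

end Act.Mod

section Hom

variable {AA' : Type v} [CommRing AA'] [Algebra R' AA'] {t : A.Hom A'} {V : A.Mod AA}
  {V' : A'.Mod AA'} [V.IsAlg] [V'.IsAlg] (f : SHom t V V') (h1 : f.Φ 1 = 1)
  (hm : ∀ x y, f.Φ (x * y) = f.Φ x * f.Φ y)

/-- the ring map on cochains -/
def SHom.cochR (I : Type) : V.Coch I →+* V'.Coch I :=
  ⟨⟨⟨f.coch I, Subtype.ext (funext fun _ => h1)⟩, fun _ _ => Subtype.ext (funext fun _ => hm _ _)⟩,
    map_zero _, map_add _⟩

/-- the ring map on fractions -/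
noncomputable def SHom.locR (χ : I → Option ι) : V.Loc χ →+* V'.Loc χ where
  toFun := f.loc χ
  map_one' := (congrArg (f.loc χ) fr_one.symm).trans ((congrArg₂ Mod.fr (map_one (f.cochR h1 hm I))
    (Subtype.ext (map_one (t.gam I)))).trans fr_one)
  map_mul' x y := by
    obtain ⟨F, s, rfl⟩ := fr_surj x
    obtain ⟨F', s', rfl⟩ := fr_surj y
    rw [fr_mul_fr, f.loc_fr, f.loc_fr, f.loc_fr, fr_mul_fr]
    exact congrArg₂ Mod.fr (map_mul (f.cochR h1 hm I) _ _) (Subtype.ext (map_mul (t.gam I) _ _))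
  map_zero' := map_zero _
  map_add' := map_add _

theorem SHom.locR_apply (χ : I → Option ι) (x) : f.locR h1 hm χ x = f.loc χ x := rfl

theorem SHom.coch_vx (i : I) (x : AA) : f.coch I (V.vx i x) = V'.vx i (f.Φ x) :=
  Subtype.ext (funext fun _ => f.equi _ _)

end Hom

section Pf

variable {p : ℕ} [hp : Fact p.Prime] [Ch p R] [Algebra (ZMod p) R] {A : Act (ZMod p) R G ι}
  {AA : Type} [CommRing AA] [Algebra R AA] [Pf p AA] (V : A.Mod AA) [V.IsAlg]

theorem frS_loc {Φ : G → AA →+* AA} (hV : ∀ g x, V.ρ g x = Φ g x) {χ : I → Option ι}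
    (x : V.Loc χ) : (frS V hV).loc χ x = x ^ p := by
  obtain ⟨F, s, rfl⟩ := fr_surj x
  rw [fr_pow]
  rfl

theorem pf_coch (hP : PBs (P261.fr p R) A.m A.m) (I : Type) : Pf p (V.Coch I) :=
  { char := Subtype.ext (funext fun g => (map_natCast (V.evR g) p).trans Ch.char)
    bij := ⟨fun F F' h => Subtype.ext (funext fun g => Pf.bij.1 (congrFun (congrArg Subtype.val h) g)),
      (frS V (Φ := V.ρR) fun _ _ => rfl).coch_surj hP Pf.bij I⟩ }

theorem pf_loc (hP : PBs (P261.fr p R) A.m A.m) (χ : I → Option ι) : Pf p (V.Loc χ) := by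
  have := pf_coch V hP I
  have : Ch p (V.Loc χ) := Ch.of_hom (V.toLoc χ)
  refine { bij := ⟨(injective_iff_map_eq_zero (P261.fr p (V.Loc χ))).2 fun x hx => ?_, fun y =>
    ((frS V (Φ := V.ρR) fun _ _ => rfl).loc_surj (SHom.coch_surj _ hP Pf.bij I) χ y).imp
      fun x hx => (frS_loc V (Φ := V.ρR) (fun _ _ => rfl) x).symm.trans hx⟩ }
  obtain ⟨F, s, rfl⟩ := fr_surj x
  rw [fr_apply, fr_pow, fr_eq_zero] at hx
  obtain ⟨t, ht⟩ := hx
  refine fr_eq_zero.2 ⟨t, eq_zero_of_pow (N := p) ?_⟩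
  rw [smul_pow, ← pow_sub_one_mul hp.out.ne_zero, mul_smul, ht, smul_zero]

end Pf

section Fil

variable {p : ℕ} [hp : Fact p.Prime] (V : A.Mod AA) [V.IsAlg] (F : Fil p AA)
  (M : ℝ → Submodule R AA) (hM : ∀ t x, x ∈ M t ↔ x ∈ F.F t) (i : I) (χ : I → Option ι)

include hM in
/-- the filtration of the ring of fractions -/
noncomputable def filL : Fil p (V.Loc χ) where
  F t := (V.LS (M t) i χ).toAddSubgroup
  mono s t h := by
    rintro _ ⟨H, z, rfl, e⟩
    exact ⟨H, z, rfl, fun g => (hM _ _).2 (Fil.le ((hM _ _).1 (e g)) h)⟩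
  one_mem := ⟨1, 1, fr_one.symm, fun g => by rw [one_val, IsAlg.one, hM]; exact F.one_mem⟩
  mul_mem := by
    rintro s t _ _ ⟨H, z, rfl, e⟩ ⟨H', z', rfl, e'⟩
    refine ⟨_, _, fr_mul_fr _ _ _ _, fun g => ?_⟩
    rw [mul_val, IsAlg.mul, hM]
    exact F.mul_mem ((hM _ _).1 (e g)) ((hM _ _).1 (e' g))
  root := by
    rintro t x ⟨H', z', e, h⟩
    obtain ⟨H, z, rfl⟩ := fr_surj x
    rw [fr_pow, fr_eq] at e
    obtain ⟨y, e⟩ := e
    refine ⟨y.1 • z'.1 • H, y * (z' * z), by rw [fr_cancel, fr_cancel], fun g => ?_⟩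
    have h1 : (y.1 • z'.1 • H) ^ p = (y.1 * z'.1) ^ (p - 1) • y.1 • (z ^ p).1 • H' := by
      rw [← e, smul_smul, smul_smul y.1, smul_smul, smul_pow, pow_sub_one_mul hp.out.ne_zero]
    rw [hM]
    refine F.root ((hM _ _).1 ?_)
    rw [← V.ρR_apply, ← map_pow, ← pow_val, h1, V.ρR_apply]
    simp only [smul_val, V.semi]
    exact (M _).smul_mem _ ((M _).smul_mem _ ((M _).smul_mem _ (h g)))

theorem mem_filL {t : ℝ} {x : V.Loc χ} : x ∈ (filL V F M hM i χ).F t ↔ x ∈ V.LS (M t) i χ := Iff.rfl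

theorem alg_mem_filL (a : A.Gam I) : algebraMap _ _ a ∈ (filL V F M hM i χ).F 0 :=
  ⟨algebraMap _ _ a, 1, (V.toLoc_alg a).symm, fun g => by
    rw [alg_val, V.ρ_alg, Algebra.algebraMap_eq_smul_one]
    exact (M 0).smul_mem _ ((hM _ _).2 F.one_mem)⟩

theorem inv_mem_filL (s : A.Den χ) : Mod.fr 1 s ∈ (filL V F M hM i χ).F 0 :=
  ⟨1, s, rfl, fun g => by rw [one_val, IsAlg.one, hM]; exact F.one_mem⟩

theorem vx_mem_filL (hs : ∀ t, V.Stab (M t)) (j : I) {t : ℝ} {x : AA} (h : x ∈ F.F t) :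
    V.toLoc χ (V.vxR j x) ∈ (filL V F M hM i χ).F t :=
  ⟨_, 1, rfl, fun g => hs t _ _ (hs t _ _ ((hM _ _).2 h))⟩

end Fil

theorem LS_vertex (V : A.Mod AA) {P : Submodule R AA} (hP : V.Stab P) (i j : I) (χ : I → Option ι) :
    V.LS P i χ ≤ V.LS P j χ := by
  rintro _ ⟨H, z, rfl, e⟩
  exact ⟨H, z, rfl, fun g => hP _ _ (V.ρ_inv (g i) (H.1 g) ▸ hP _ _ (e g))⟩

section Test

variable {p : ℕ} [hp : Fact p.Prime] [Ch p R] [Algebra (ZMod p) R] {A : Act (ZMod p) R G ι}
  {AA : Type} [CommRing AA] [Algebra R AA] [Pf p AA] (V : A.Mod AA) [V.IsAlg]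
  (hP : PBs (P261.fr p R) A.m A.m) (F : Fil p AA) (M : ℝ → Submodule R AA)
  (hM : ∀ t x, x ∈ M t ↔ x ∈ F.F t)

/-- the ring of fractions as a test object -/
@[reducible] noncomputable def test (i : I) (χ : I → Option ι) : FP p (ZMod p) where
  K := V.Loc χ
  pf := pf_loc V hP χ
  F := (filL V F M hM i χ).cl hp.out.pos
  cl := Fil.closed_cl _
  k0 _ := Fil.le_cl (alg_mem_filL V F M hM i χ _)

/-- precomposition as a map of test objects -/
noncomputable def testMap (hs : ∀ t, V.Stab (M t)) (i : I) (j : J) (f : I → J) (χ : J → Option ι) :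
    (test V hP F M hM i (χ ∘ f)).Hom (test V hP F M hM j χ) where
  f := { V.lpullR f χ with
    commutes' := fun a => (congrArg (V.lpullR f χ) (V.toLoc_alg (A.cst I a)).symm).trans
      (V.toLoc_alg (A.cst J a)) }
  mem t x hx ε hε := by
    obtain ⟨H, z, rfl, e⟩ := hx ε hε
    exact LS_vertex V (hs _) (f i) j χ ⟨V.pull f H, _, rfl, fun g => e (g ∘ f)⟩

theorem testMap_apply (hs : ∀ t, V.Stab (M t)) (i : I) (j : J) (f : I → J) (χ : J → Option ι) (x) :
    (testMap V hP F M hM hs i j f χ).f x = V.lpull f χ x := rfl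

end Test

end P261.NM
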