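import Vale.Agent.P261Z.NM.Defs

/-!
# P261, block NM: lifting of continuous functions, generators, exactness of `N`
-/

set_option linter.all false

namespace P261.NM

open P261.Cs

universe u v w

section AR

variable {R : Type} [CommRing R] {m : Ideal R} {Y : Type} [TopologicalSpace Y] {a b : ℕ}
  {M : Type u} [AddCommGroup M] [Module R M]

theorem mem_smul_pi (I : Ideal R) {x : Fin a → R} :
    x ∈ I • (⊤ : Submodule R (Fin a → R)) ↔ ∀ i, x i ∈ I := by
  refine ⟨fun h i => Submodule.smul_induction_on (p := fun x => x i ∈ I) h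
    (fun r hr n _ => I.mul_mem_right _ hr) fun x y => I.add_mem, fun h => ?_⟩
  rw [pi_eq_sum_univ x]
  exact Submodule.sum_mem _ fun i _ => Submodule.smul_mem_smul (h i) trivial

theorem lin_mem (I : Ideal R) (π : (Fin b → R) →ₗ[R] (Fin a → R)) {w : Fin b → R}
    (h : ∀ j, w j ∈ I) : ∀ i, π w i ∈ I := by
  rw [← mem_smul_pi] at h ⊢
  have := Submodule.mem_map_of_mem (f := π) h
  rw [Submodule.map_smul''] at this
  exact Submodule.smul_mono le_rfl le_top this

theorem lift_step (π : (Fin b → R) →ₗ[R] (Fin a → R)) (N N' : ℕ) {e : Y → Fin a → R}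
    (he : ∀ i, (fun y => e y i) ∈ LC m Y) (h : ∀ y, ∃ w, (∀ j, w j ∈ m ^ N) ∧ π w = e y) :
    ∃ δ : Y → Fin b → R, IsLocallyConstant δ ∧ (∀ y j, δ y j ∈ m ^ N) ∧
      ∀ y i, e y i - π (δ y) i ∈ m ^ N' := by
  have h1 : ∀ z : Fin a → R ⧸ m ^ N', ∃ s : Fin b → R, ∀ y,
      (fun i => Ideal.Quotient.mk _ (e y i)) = z →
        (∀ j, s j ∈ m ^ N) ∧ (fun i => Ideal.Quotient.mk _ (π s i)) = z := fun z => by
    by_cases hz : ∃ y, (fun i => Ideal.Quotient.mk (m ^ N') (e y i)) = z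
    · obtain ⟨y, rfl⟩ := hz
      obtain ⟨w, h1, h2⟩ := h y
      exact ⟨w, fun _ _ => ⟨h1, by rw [h2]⟩⟩
    · exact ⟨0, fun y hy => absurd ⟨y, hy⟩ hz⟩
  choose s hs using h1
  have h2 : IsLocallyConstant fun y i => Ideal.Quotient.mk (m ^ N') (e y i) := by
    rw [IsLocallyConstant.iff_eventually_eq]
    intro y
    filter_upwards [Filter.eventually_all.2 fun i => (he i N').eventually_eq y] with z hz
    exact funext hz
  exact ⟨_, h2.comp s, fun y => (hs _ y rfl).1,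
    fun y i => Ideal.Quotient.eq.1 (congrFun (hs _ y rfl).2 i).symm⟩

theorem mem_cts {F : Y → M} (hF : F ∈ Cts m Y M) : ∃ (a : ℕ) (f : Y → Fin a → R) (x : Fin a → M),
    (∀ i, (fun y => f y i) ∈ LC m Y) ∧ ∀ y, F y = ∑ i, f y i • x i := by
  obtain ⟨n, f, x, h⟩ := Submodule.mem_span_set'.1 hF
  choose z hz using fun i => (x i).2
  refine ⟨n, fun y i => (f i).1 y, z, fun i => (f i).2, fun y => ?_⟩
  rw [← h, Finset.sum_apply]
  exact Finset.sum_congr rfl fun i _ => by rw [← hz]; rfl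

theorem cts_sum {f : Y → Fin a → R} (hf : ∀ i, (fun y => f y i) ∈ LC m Y) (x : Fin a → M) :
    (fun y => ∑ i, f y i • x i) ∈ Cts m Y M := by
  have := (Cts m Y M).sum_mem fun i (_ : i ∈ Finset.univ) => cts_smul (hf i) (cts_const (x i))
  rwa [Finset.sum_fn] at this

variable [IsNoetherianRing R] [IsAdicComplete m R]

theorem lift_lc (π : (Fin b → R) →ₗ[R] (Fin a → R)) {f : Y → Fin a → R}
    (hf : ∀ i, (fun y => f y i) ∈ LC m Y) (h : ∀ y, f y ∈ LinearMap.range π) :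
    ∃ g : Y → Fin b → R, (∀ j, (fun y => g y j) ∈ LC m Y) ∧ ∀ y, π (g y) = f y := by
  obtain ⟨c, hc⟩ := m.exists_pow_inf_eq_pow_smul (LinearMap.range π)
  have ar : ∀ N v, v ∈ LinearMap.range π → (∀ i, v i ∈ m ^ (N + c)) →
      ∃ w, (∀ j, w j ∈ m ^ N) ∧ π w = v := fun N v h1 h2 => by
    have h3 : v ∈ m ^ (N + c) • ⊤ ⊓ LinearMap.range π := ⟨(mem_smul_pi _).2 h2, h1⟩
    rw [hc _ (Nat.le_add_left _ _), Nat.add_sub_cancel] at h3
    have h4 := Submodule.smul_mono le_rfl inf_le_right h3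
    rw [LinearMap.range_eq_map, ← Submodule.map_smul''] at h4
    obtain ⟨w, h5, h6⟩ := h4
    exact ⟨w, (mem_smul_pi _).1 h5, h6⟩
  let P : ℕ → (Y → Fin b → R) → Prop := fun N H =>
    IsLocallyConstant H ∧ ∀ y, ∃ w, (∀ j, w j ∈ m ^ N) ∧ π w = f y - π (H y)
  have step : ∀ N (H : {H // P N H}), ∃ H' : {H // P (N + 1) H},
      ∀ y j, H'.1 y j - H.1 y j ∈ m ^ N := fun N ⟨H, h1, h2⟩ => by
    obtain ⟨δ, h3, h4, h5⟩ := lift_step π N (N + 1 + c) (e := fun y => f y - π (H y))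
      (fun i => sub_mem (hf i) fun N => h1.comp fun w => Ideal.Quotient.mk _ (π w i)) h2
    refine ⟨⟨H + δ, h1.add h3, fun y => ar _ _ (sub_mem (h y) ⟨_, rfl⟩) fun i => ?_⟩,
      fun y j => by simpa using h4 y j⟩
    simpa [sub_sub] using h5 y i
  choose st hst using step
  let H : ∀ N, {H // P N H} := fun N => Nat.rec ⟨0, IsLocallyConstant.const 0, fun y => by
    obtain ⟨w, hw⟩ := h y
    exact ⟨w, by simp, by simp [hw]⟩⟩ st N
  have h1 : ∀ y j, ∃ L, ∀ N, (H N).1 y j - L ∈ m ^ N := fun y j => by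
    have := IsPrecomplete.prec (I := m) inferInstance (f := fun N => (H N).1 y j) fun {N N'} hN => by
      rw [SModEq.sub_mem, smul_eq_mul, Ideal.mul_top]
      induction N', hN using Nat.le_induction with
      | base => simp
      | succ N' hN ih => simpa using sub_mem ih (Ideal.pow_le_pow_right hN (hst N' (H N') y j))
    simpa only [SModEq.sub_mem, smul_eq_mul, Ideal.mul_top] using this
  choose g hg using h1
  refine ⟨g, fun j N => ?_, fun y => funext fun i => sub_eq_zero.1 ?_⟩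
  · have : (fun y => Ideal.Quotient.mk (m ^ N) (g y j)) =
        (fun w => Ideal.Quotient.mk (m ^ N) (w j)) ∘ (H N).1 :=
      funext fun y => (Ideal.Quotient.eq.2 (hg y j N)).symm
    exact this ▸ (H N).2.1.comp _
  · refine IsHausdorff.haus (I := m) inferInstance _ fun N => ?_
    rw [SModEq.zero, smul_eq_mul, Ideal.mul_top]
    obtain ⟨w, h1, h2⟩ := (H N).2.2 y
    have h3 := add_mem (lin_mem _ π h1 i) (lin_mem _ π (w := (H N).1 y - g y) (hg y · N) i)
    rw [h2, map_sub] at h3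
    simpa using neg_mem h3

/-- a continuous function with values in `P` is a continuous function to `P` -/
theorem cts_sub {F : Y → M} (hF : F ∈ Cts m Y M) {P : Submodule R M} (h : ∀ y, F y ∈ P) :
    ∃ (a : ℕ) (f : Y → Fin a → R) (x : Fin a → M),
      (∀ i, (fun y => f y i) ∈ LC m Y) ∧ (∀ i, x i ∈ P) ∧ ∀ y, F y = ∑ i, f y i • x i := by
  obtain ⟨a, f, x, h1, h2⟩ := mem_cts hF
  obtain ⟨b, q, hq⟩ := Submodule.fg_iff_exists_fin_generating_family.1
    (IsNoetherian.noetherian (P.comap (Fintype.linearCombination R x)))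
  obtain ⟨g, h3, h4⟩ := lift_lc (Fintype.linearCombination R q) h1 fun y => by
    rw [Fintype.range_linearCombination, hq, Submodule.mem_comap, Fintype.linearCombination_apply,
      ← h2]
    exact h y
  refine ⟨b, g, fun j => Fintype.linearCombination R x (q j), h3, fun j => ?_, fun y => ?_⟩
  · exact hq.le (Submodule.subset_span ⟨j, rfl⟩)
  · rw [h2, ← Fintype.linearCombination_apply R, ← h4, Fintype.linearCombination_apply R q, map_sum]
    simp only [map_smul]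

theorem cts_sub' {P : Submodule R M} {F : Y → P} (hF : (fun y => (F y).1) ∈ Cts m Y M) :
    F ∈ Cts m Y P := by
  obtain ⟨a, f, x, h1, h2, h3⟩ := cts_sub hF fun y => (F y).2
  have : F = fun y => ∑ i, f y i • (⟨x i, h2 i⟩ : P) :=
    funext fun y => Subtype.ext (by simpa using h3 y)
  exact this ▸ cts_sum h1 _

end AR

variable {k R R' G ι : Type} [CommRing k] [CommRing R] [Algebra k R] [CommRing R'] [Algebra k R']
  [Group G] [TopologicalSpace G] {A : Act k R G ι} {A' : Act k R' G ι} {M : Type u}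
  [AddCommGroup M] [Module R M] {I : Type}

open Act Act.Mod

theorem Act.Hom.den_dvd (t : A.Hom A') {χ : I → Option ι} (s' : A'.Den χ) :
    ∃ (s : A.Den χ) (c : A'.Gam I), t.gam I s = c * s' := by
  obtain ⟨s', h⟩ := s'
  induction h using Submonoid.closure_induction with
  | mem _ h =>
    obtain ⟨i, j, e, rfl⟩ := h
    obtain ⟨l, hl⟩ := t.τ_u j
    exact ⟨⟨_, A.vx_mem e⟩, A'.vx i (A'.u j) ^ l, by rw [t.gam_vx, hl, map_pow, pow_succ]⟩
  | one => exact ⟨1, 1, by simp⟩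
  | mul x y _ _ h h' =>
    obtain ⟨s, c, e⟩ := h
    obtain ⟨s', c', e'⟩ := h'
    exact ⟨s * s', c * c', by rw [Submonoid.coe_mul, map_mul, e, e', mul_mul_mul_comm]⟩

section Comap

variable {M' : Type v} [AddCommGroup M'] [Module R' M'] {t : A.Hom A'} {V : A.Mod M}
  {V' : A'.Mod M'} (f : SHom t V V')

theorem SHom.NS_comap (P : Submodule R' M') {n : ℕ} {x : V.N.X n} :
    x ∈ V.NS (P.comap f.Φ) n ↔ f.N.app n x ∈ V'.NS P n := by
  refine ⟨f.N_maps fun _ h => h, fun hx => V.mem_NS.2 fun χ => ?_⟩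
  obtain ⟨F, s, e⟩ := fr_surj (x.1 χ)
  obtain ⟨F', s', e', h⟩ := V'.mem_NS.1 hx χ
  rw [f.N_val, e, f.loc_fr, fr_eq] at e'
  obtain ⟨z, hz⟩ := e'
  obtain ⟨y, c, hy⟩ := t.den_dvd (z * s')
  refine ⟨y.1 • F, y * s, by rw [fr_cancel, e], fun g => ?_⟩
  have h1 : f.coch _ (y.1 • F) = c • z.1 • t.gam _ s.1 • F' := by
    rw [map_smulₛₗ, hy, Submonoid.coe_mul, mul_smul, mul_smul, hz]
  rw [Submodule.mem_comap, f.equi, ← f.coch_val, h1]
  simp only [smul_val, V'.semi]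
  exact P.smul_mem _ (P.smul_mem _ (P.smul_mem _ (h g)))

theorem SHom.N_inj (h : Function.Injective f.Φ) (n : ℕ) : Function.Injective (f.N.app n) := by
  refine (injective_iff_map_eq_zero _).2 fun x hx => ?_
  have := (f.NS_comap ⊥).2 (hx ▸ zero_mem _ : f.N.app n x ∈ V'.NS ⊥ n)
  rwa [Submodule.comap_bot, LinearMap.ker_eq_bot.2 h, NS_bot] at this

end Comap

theorem N_d_val (V : A.Mod M) {n : ℕ} (x : V.N.X n) (χ) : (V.N.d n x).1 χ =
    ∑ i : Fin (n + 2), (-1 : k) ^ (i : ℕ) • V.lpull i.succAbove χ (x.1 (χ ∘ i.succAbove)) := by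
  rw [V.red.coe_d, Cos.d, LinearMap.sum_apply, Finset.sum_apply]
  rfl

theorem inj0 (V : A.Mod M) (j : ι) (h : ∀ x : M, A.u j • x = 0 → x = 0) (x : V.N.X 0)
    (hx : V.N.d 0 x = 0) : x = 0 := Subtype.ext (funext fun χ => by
  cases hχ : χ 0 with
  | some l => exact x.2 χ fun i => by rw [Fin.fin_one_eq_zero i, hχ]; simp
  | none =>
    let ψ : Fin 2 → Option ι := ![none, some j]
    obtain rfl : χ = ψ ∘ Fin.succAbove 1 := funext fun i => by rw [Fin.fin_one_eq_zero i, hχ]; rfl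
    have h1 : V.lpull (Fin.succAbove 1) ψ (x.1 _) = 0 := by
      have h2 := (N_d_val V x ψ).symm.trans (congrArg (fun y : V.N.X 1 => y.1 ψ) hx)
      have h3 : x.1 (ψ ∘ Fin.succAbove 0) = 0 :=
        x.2 _ fun i => by rw [Fin.fin_one_eq_zero i]; simp [ψ]
      rw [Fin.sum_univ_two, h3, map_zero] at h2
      simpa using h2
    obtain ⟨F, s, e⟩ := fr_surj (x.1 (ψ ∘ Fin.succAbove 1))
    rw [e, lpull_fr, fr_eq_zero] at h1
    obtain ⟨⟨z, hz⟩, h2⟩ := h1
    have h3 : ∀ g (y : M), z.1 g • y = 0 → y = 0 := by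
      clear h2
      induction hz using Submonoid.closure_induction with
      | mem _ h' =>
        obtain ⟨i, l, e', rfl⟩ := h'
        obtain rfl : l = j := by fin_cases i <;> simp_all [ψ]
        intro g y hy
        rw [A.vx_val, ← V.ρ_inv (g i) y, ← V.semi] at hy
        rw [← V.ρ_inv (g i) y, h _ ((V.inv_ρ (g i) _).symm.trans
          ((congrArg _ hy).trans (map_zero _))), map_zero]
      | one => exact fun g y hy => (one_smul R y).symm.trans hy
      | mul a b _ _ ha hb => exact fun g y hy => hb g y (ha g _ ((mul_smul _ _ _).symm.trans hy))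
    have h4 : F = 0 := Subtype.ext (funext fun g =>
      (congrArg F.1 (funext fun i => by rw [Fin.fin_one_eq_zero i]; rfl)).trans
        (h3 (fun _ => g 0) _ (congrFun (congrArg Subtype.val h2) _)))
    rw [e, h4, zero_fr]
    rfl)

variable [IsTopologicalGroup G] (V : A.Mod M)

theorem gen_aux (i : I) (F : V.Coch I) {a : ℕ} {f : (I → G) → Fin a → R} {x : Fin a → M}
    (h1 : ∀ j, (fun y => f y j) ∈ LC A.m _) (h2 : ∀ g, V.ρ (g i)⁻¹ (F.1 g) = ∑ j, f g j • x j) :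
    ∃ c : Fin a → A.Gam I, F = ∑ j, c j • V.vx i (x j) := by
  refine ⟨fun j => ⟨fun g => A.φ (g i) (f (fun l => (g i)⁻¹ * g l) j),
    A.lc_φ (by fun_prop) (lc_comp (h1 j) (by fun_prop)), fun γ g => ?_⟩,
    Subtype.ext (funext fun g => ?_)⟩
  · simp only [A.φ_mul, mul_inv_rev, mul_assoc, inv_mul_cancel_left]
  · have h3 := h2 fun l => (g i)⁻¹ * g l
    rw [F.2.2, inv_mul_cancel, inv_one, ρ_one] at h3
    rw [← V.ρ_inv (g i) (F.1 g), h3, map_sum, Submodule.coe_sum, Finset.sum_apply]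
    exact Finset.sum_congr rfl fun j _ => V.semi _ _ _

theorem cts_nor (i : I) (F : V.Coch I) : (fun g => V.ρ (g i)⁻¹ (F.1 g)) ∈ Cts A.m (I → G) M :=
  V.cts_ρ (by fun_prop) F.2.1

/-- cochains are generated by the image of a vertex map -/
theorem gen_top (i : I) (F : V.Coch I) :
    ∃ (a : ℕ) (c : Fin a → A.Gam I) (x : Fin a → M), F = ∑ j, c j • V.vx i (x j) := by
  obtain ⟨a, f, x, h1, h2⟩ := mem_cts (cts_nor V i F)
  exact ⟨a, _, x, (gen_aux V i F h1 h2).choose_spec⟩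

theorem nor_mem (i : I) {P : Submodule R M} {a : ℕ} (c : Fin a → A.Gam I) {x : Fin a → M}
    (h : ∀ j, x j ∈ P) (g) : V.ρ (g i)⁻¹ ((∑ j, c j • V.vx i (x j)).1 g) ∈ P := by
  rw [Submodule.coe_sum, Finset.sum_apply, map_sum]
  refine P.sum_mem fun j _ => ?_
  change V.ρ _ ((c j).1 g • V.ρ (g i) (x j)) ∈ P
  rw [V.semi, inv_ρ]
  exact P.smul_mem _ (h j)

section Op

variable {M' : Type v} [AddCommGroup M'] [Module R M'] (V' : A.Mod M') (E : M →ₗ[R] M')

theorem opc_vx (i : I) (x : M) : opc V V' E i (V.vx i x) = V'.vx i (E x) :=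
  Subtype.ext (funext fun g => by rw [opc_val, V.vx_val, inv_ρ]; rfl)

theorem op_map {P : Submodule R M} (hP : V.Stab P) (h : ∀ g, ∀ y ∈ P, E (V.ρ g y) = V'.ρ g (E y))
    {m n : ℕ} (f : Fin (m + 1) → Fin (n + 1)) {x : V.N.X m} (hx : x ∈ V.NS P m) :
    op V V' E n (V.N.map f x) = V'.N.map f (op V V' E m x) := Subtype.ext (funext fun χ => by
  obtain ⟨F, s, e, hF⟩ := V.mem_NS.1 hx (χ ∘ f)
  rw [op_val, N_map, N_map, op_val, e, lpull_fr, opl_fr, opl_fr, lpull_fr]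
  refine fr_congr _ fun g => ?_
  have h1 : F.1 (g ∘ f) ∈ P := V.ρ_inv ((g ∘ f) 0) (F.1 (g ∘ f)) ▸ hP _ _ (hF _)
  rw [opc_val, V'.pull_val, opc_val, V.pull_val, h _ _ h1, h _ _ h1, ρ_inv, ρ_inv])

theorem NS_comap (P : Submodule R M') {n : ℕ} {x : V.N.X n} :
    x ∈ V.NS (P.comap E) n ↔ op V V' E n x ∈ V'.NS P n := by
  refine ⟨op_maps V V' E fun _ h => h, fun hx => V.mem_NS.2 fun χ => ?_⟩
  obtain ⟨F, s, e⟩ := fr_surj (x.1 χ)
  obtain ⟨F', s', e', h⟩ := V'.mem_NS.1 hx χ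
  rw [op_val, e, opl_fr, fr_eq] at e'
  obtain ⟨z, hz⟩ := e'
  refine ⟨z.1 • s'.1 • F, z * (s' * s), by rw [fr_cancel, fr_cancel, e], fun g => ?_⟩
  rw [← map_smul, ← map_smul] at hz
  rw [Submodule.mem_comap, ← V'.inv_ρ (g 0) (E _), ← opc_val, hz]
  simp only [smul_val, V'.semi]
  exact P.smul_mem _ (P.smul_mem _ (h g))

theorem op_lift (P : Submodule R M) {n : ℕ} {y : V'.N.X n} (h : ∀ χ, ∃ (a : ℕ)
    (c : Fin a → A.Gam (Fin (n + 1))) (x : Fin a → M) (s : A.Den χ), (∀ j, x j ∈ P) ∧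
      y.1 χ = fr (∑ j, c j • V'.vx (0 : Fin (n + 1)) (E (x j))) s) :
    ∃ x ∈ V.NS P n, op V V' E n x = y := by
  have h1 : ∀ χ, ∃ z ∈ V.LS P 0 χ, ((∀ i, χ i ≠ none) → z = 0) ∧ opl V V' E 0 χ z = y.1 χ :=
    fun χ => by
    by_cases hχ : ∀ i, χ i ≠ none
    · exact ⟨0, zero_mem _, fun _ => rfl, (map_zero _).trans (y.2 χ hχ).symm⟩
    · obtain ⟨a, c, x, s, h1, h2⟩ := h χ
      refine ⟨fr _ s, ⟨_, _, rfl, nor_mem V 0 c h1⟩, fun h => absurd h hχ, ?_⟩
      simp only [h2, opl_fr, map_sum, map_smul, opc_vx]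
  choose z h1 h2 h3 using h1
  exact ⟨⟨z, h2⟩, fun χ _ => h1 χ, Subtype.ext (funext h3)⟩

theorem op_surj (h : Function.Surjective E) (n : ℕ) : Function.Surjective (op V V' E n) :=
  fun y => (op_lift V V' E ⊤ fun χ => by
    obtain ⟨F, s, e⟩ := fr_surj (y.1 χ)
    obtain ⟨a, c, x, rfl⟩ := gen_top V' 0 F
    choose z hz using fun j => h (x j)
    exact ⟨a, c, z, s, fun _ => trivial, by simp only [hz, e]⟩).imp fun _ h => h.2

end Op

variable [IsNoetherianRing R] [IsAdicComplete A.m R]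

/-- cochains with values in `P` are generated by the image of `P` under the vertex map -/
theorem gen (i : I) {P : Submodule R M} (F : V.Coch I) (h : ∀ g, V.ρ (g i)⁻¹ (F.1 g) ∈ P) :
    ∃ (a : ℕ) (c : Fin a → A.Gam I) (x : Fin a → M),
      (∀ j, x j ∈ P) ∧ F = ∑ j, c j • V.vx i (x j) := by
  obtain ⟨a, f, x, h1, h2, h3⟩ := cts_sub (cts_nor V i F) h
  exact ⟨a, _, x, h2, (gen_aux V i F h1 h3).choose_spec⟩

theorem NS_map {M' : Type v} [AddCommGroup M'] [Module R M'] (V' : A.Mod M') (E : M →ₗ[R] M')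
    (P : Submodule R M) (n : ℕ) : V'.NS (P.map E) n = (V.NS P n).map (op V V' E n) := by
  refine le_antisymm (fun y hy => op_lift V V' E P fun χ => ?_) ?_
  · obtain ⟨F, s, e, h⟩ := V'.mem_NS.1 hy χ
    obtain ⟨a, c, x, h1, rfl⟩ := gen V' 0 F h
    choose z h2 h3 using h1
    exact ⟨a, c, z, s, h2, by simp only [h3, e]⟩
  · rintro _ ⟨x, hx, rfl⟩
    exact op_maps V V' E (fun _ h => Submodule.mem_map_of_mem h) hx

theorem NS_fg [Finite ι] {P : Submodule R M} {n : ℕ} {x : V.N.X n} (hx : x ∈ V.NS P n) :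
    ∃ Q ≤ P, Q.FG ∧ x ∈ V.NS Q n := by
  choose F s e h using V.mem_NS.1 hx
  choose a c y h1 h2 using fun χ => gen V 0 (F χ) (h χ)
  refine ⟨Submodule.span R (Set.range fun z : Σ χ, Fin (a χ) => y z.1 z.2),
    Submodule.span_le.2 (Set.range_subset_iff.2 fun z => h1 _ _),
    Submodule.fg_span (Set.finite_range _), V.mem_NS.2 fun χ => ⟨_, _, e χ, ?_⟩⟩
  rw [h2]
  exact nor_mem V 0 _ fun j => Submodule.subset_span ⟨⟨χ, j⟩, rfl⟩

theorem NS_sup [Finite ι] {α : Sort*} [Nonempty α] {P : α → Submodule R M}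
    (hP : Directed (· ≤ ·) P) {n : ℕ} {x : V.N.X n} (hx : x ∈ V.NS (⨆ a, P a) n) :
    ∃ a, x ∈ V.NS (P a) n := by
  obtain ⟨Q, h1, h2, h3⟩ := NS_fg V hx
  obtain ⟨b, q, rfl⟩ := Submodule.fg_iff_exists_fin_generating_family.1 h2
  choose a ha using fun j =>
    (Submodule.mem_iSup_of_directed P hP).1 (h1 (Submodule.subset_span ⟨j, rfl⟩))
  obtain ⟨z, hz⟩ := hP.finite_le a
  exact ⟨z, NS_mono V (Submodule.span_le.2 (Set.range_subset_iff.2 fun j => hz j (ha j))) n h3⟩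

omit [IsTopologicalGroup G] in
/-- stable submodules -/
def Act.Mod.sub (P : Submodule R M) (hP : V.Stab P) : A.Mod P where
  ρ := ⟨⟨fun g => AddMonoidHom.mk' (fun x => ⟨V.ρ g x, hP g _ x.2⟩) fun x y =>
      Subtype.ext (map_add (V.ρ g) x.1 y.1),
    AddMonoidHom.ext fun x => Subtype.ext (V.ρ_one _)⟩,
    fun g g' => AddMonoidHom.ext fun x => Subtype.ext (V.ρ_mul _ _ _)⟩
  semi g r x := Subtype.ext (V.semi g r x)
  adm x := cts_sub' (V.adm x.1)

omit [IsTopologicalGroup G] in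
/-- the inclusion -/
def Act.Mod.incl (P : Submodule R M) (hP : V.Stab P) : LHom (V.sub P hP) V :=
  ⟨P.subtype, fun _ _ => rfl⟩

section SES

variable {V} {M' : Type v} [AddCommGroup M'] [Module R M'] {V' : A.Mod M'} {M'' : Type w}
  [AddCommGroup M''] [Module R M''] {V'' : A.Mod M''}

theorem SHom.mem_range (f : LHom V V') {n : ℕ} {y : V'.N.X n} :
    y ∈ V'.NS (LinearMap.range f.Φ) n ↔ ∃ x, f.N.app n x = y := by
  rw [LinearMap.range_eq_map, NS_map V V', NS_top]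
  simp only [Submodule.mem_map, Submodule.mem_top, true_and]
  exact exists_congr fun x => by rw [op_eq]

theorem SHom.exact (f : LHom V V') (g : LHom V' V'') (h : Function.Exact f.Φ g.Φ) {n : ℕ}
    (y : V'.N.X n) : g.N.app n y = 0 ↔ ∃ x, f.N.app n x = y := by
  rw [← f.mem_range, ← LinearMap.exact_iff.1 h, ← Submodule.comap_bot, g.NS_comap, NS_bot,
    Submodule.mem_bot]

end SES

variable {V} in
/-- `N` is exact -/
noncomputable def ses {M' M'' : Type u} [AddCommGroup M'] [Module R M'] [AddCommGroup M'']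
    [Module R M''] {V' : A.Mod M'} {V'' : A.Mod M''} (f : LHom V V') (g : LHom V' V'')
    (hf : Function.Injective f.Φ) (hg : Function.Surjective g.Φ) (h : Function.Exact f.Φ g.Φ) :
    SES V.N V'.N V''.N where
  i := f.N
  p := g.N
  inj := f.N_inj hf
  surj n y := (op_surj V' V'' g.Φ hg n y).imp fun x h => (op_eq g x).symm.trans h
  exact _ := f.exact g h

end P261.NM
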