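import Vale.Agent.P261Z.Cs.Defs

/-!
# P261, block NM: the complex `N(M)` of a module with a continuous semilinear group action

* `LC m Y`, `Cts m Y M`: continuous functions with values in `R` and in `M`;
* `Act k R G ι`: the action on the ring; `A.Mod M`: an action on the module `M`;
* `A.Gam I`, `V.Coch I`: equivariant continuous functions on `I → G`;
* `V.Loc χ`: cochains with `u (χ i)` inverted at the vertex `i`; `V.Opt`, `V.N`;
* `V.NS P n`, `op`, `SHom`.
-/

set_option linter.all false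

namespace P261.NM

open P261.Cs

universe u v w

section LC

variable {R : Type} [CommRing R] (m : Ideal R) (Y : Type) [TopologicalSpace Y]

/-- functions which are locally constant modulo every power of `m` -/
def LC : Subring (Y → R) where
  carrier := {f | ∀ N, IsLocallyConstant fun y => Ideal.Quotient.mk (m ^ N) (f y)}
  mul_mem' h h' N := by
    simp only [Pi.mul_apply, map_mul]
    exact (h N).mul (h' N)
  add_mem' h h' N := by
    simp only [Pi.add_apply, map_add]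
    exact (h N).add (h' N)
  one_mem' N := IsLocallyConstant.const (Ideal.Quotient.mk (m ^ N) 1)
  zero_mem' N := IsLocallyConstant.const (Ideal.Quotient.mk (m ^ N) 0)
  neg_mem' h N := by
    simp only [Pi.neg_apply, map_neg]
    exact (h N).neg

/-- finite sums of products of a continuous function and an element of `M` -/
def Cts (M : Type u) [AddCommGroup M] [Module R M] : Submodule (LC m Y) (Y → M) :=
  Submodule.span _ (Set.range fun (x : M) (_ : Y) => x)

variable {m Y} {M : Type u} [AddCommGroup M] [Module R M] {Y' : Type} [TopologicalSpace Y']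

theorem lc_const (r : R) : (fun _ => r) ∈ LC m Y := fun _ => IsLocallyConstant.const _

theorem lc_comp {f : Y → R} (h : f ∈ LC m Y) {π : Y' → Y} (hπ : Continuous π) :
    (fun y => f (π y)) ∈ LC m Y' := fun N => (h N).comp_continuous hπ

theorem cts_const (x : M) : (fun _ => x) ∈ Cts m Y M := Submodule.subset_span ⟨x, rfl⟩

theorem cts_smul {f : Y → R} (h : f ∈ LC m Y) {F : Y → M} (hF : F ∈ Cts m Y M) :
    (fun y => f y • F y) ∈ Cts m Y M := (Cts m Y M).smul_mem ⟨f, h⟩ hF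

theorem cts_ind {P : (Y → M) → Prop} (h0 : P 0) (ha : ∀ F F', P F → P F' → P (F + F'))
    (h1 : ∀ f ∈ LC m Y, ∀ x, P fun y => f y • x) {F : Y → M} (hF : F ∈ Cts m Y M) : P F := by
  have : ∀ f : LC m Y, P (f • F) := by
    induction hF using Submodule.span_induction with
    | mem F h => obtain ⟨x, rfl⟩ := h; exact fun f => h1 f f.2 x
    | zero => exact fun f => by rwa [smul_zero]
    | add F F' _ _ h h' => exact fun f => by rw [smul_add]; exact ha _ _ (h f) (h' f)
    | smul a F _ h => exact fun f => by rw [smul_smul]; exact h _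
  simpa using this 1

theorem cts_map {R' : Type} [CommRing R'] {m' : Ideal R'} {M' : Type v} [AddCommGroup M']
    [Module R' M'] (T : Y' → M →+ M') (π : Y' → Y)
    (h : ∀ f ∈ LC m Y, ∀ x, (fun y => T y (f (π y) • x)) ∈ Cts m' Y' M') {F : Y → M}
    (hF : F ∈ Cts m Y M) : (fun y => T y (F (π y))) ∈ Cts m' Y' M' := by
  refine cts_ind (P := fun F => (fun y => T y (F (π y))) ∈ Cts m' Y' M') ?_ ?_ h hF
  · simp only [Pi.zero_apply, map_zero]
    exact zero_mem _
  · intro F F' h h'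
    simp only [Pi.add_apply, map_add]
    exact add_mem h h'

theorem cts_comp {F : Y → M} (hF : F ∈ Cts m Y M) {π : Y' → Y} (hπ : Continuous π) :
    (fun y => F (π y)) ∈ Cts m Y' M :=
  cts_map (fun _ => AddMonoidHom.id M) π (fun _ h x => cts_smul (lc_comp h hπ) (cts_const x)) hF

theorem map_mem_pow {R' : Type} [CommRing R'] {m' : Ideal R'} (τ : R →+* R')
    (h : ∀ r ∈ m, τ r ∈ m') (N : ℕ) : m ^ N ≤ (m' ^ N).comap τ := by
  rw [← Ideal.map_le_iff_le_comap, Ideal.map_pow]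
  exact Ideal.pow_right_mono (Ideal.map_le_iff_le_comap.2 h) N

theorem lc_map {R' : Type} [CommRing R'] {m' : Ideal R'} (τ : R →+* R') (h : ∀ r ∈ m, τ r ∈ m')
    {f : Y → R} (hf : f ∈ LC m Y) : (fun y => τ (f y)) ∈ LC m' Y :=
  fun N => (hf N).comp (Ideal.quotientMap _ τ (map_mem_pow τ h N))

theorem cts_semi {R' : Type} [CommRing R'] {m' : Ideal R'} {M' : Type v} [AddCommGroup M']
    [Module R' M'] {τ : R →+* R'} (h : ∀ r ∈ m, τ r ∈ m') (Φ : M →ₛₗ[τ] M') {F : Y → M}
    (hF : F ∈ Cts m Y M) : (fun y => Φ (F y)) ∈ Cts m' Y M' :=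
  cts_map (fun _ => Φ.toAddMonoidHom) id (fun _ hf x => by
    simpa only [LinearMap.toAddMonoidHom_coe, map_smulₛₗ, id] using
      cts_smul (lc_map τ h hf) (cts_const (Φ x))) hF

end LC

section Lmap

variable {A B : Type} [CommRing A] [CommRing B] {S : Submonoid A} {T : Submonoid B} {P : Type u}
  {Q : Type v} [AddCommGroup P] [Module A P] [AddCommGroup Q] [Module B Q] {σ : A →+* B}

open LocalizedModule in
/-- semilinear maps of modules of fractions -/
noncomputable def lmap (h : ∀ s ∈ S, σ s ∈ T) (f : P →ₛₗ[σ] Q) :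
    LocalizedModule S P →ₛₗ[σ] LocalizedModule T Q where
  toFun p := p.liftOn (fun p => mk (f p.1) ⟨σ p.2, h _ p.2.2⟩) fun a b ⟨c, e⟩ =>
    mk_eq.2 ⟨⟨σ c, h _ c.2⟩, by
      simpa only [Submonoid.smul_def, map_smulₛₗ] using congrArg f e⟩
  map_add' x y := by
    refine x.induction_on₂ (fun a b s t => ?_) y
    simp only [mk_add_mk, liftOn_mk, Submonoid.smul_def, map_add, map_smulₛₗ]
    exact congrArg _ (Subtype.ext (map_mul σ _ _))
  map_smul' r x := by
    refine x.induction_on fun a s => ?_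
    simp only [smul'_mk, liftOn_mk, map_smulₛₗ]

end Lmap

/-- a continuous action of `G` on the ring `R`, with elements `u j` of the ideal `m` -/
structure Act (k R G ι : Type) [CommRing k] [CommRing R] [Algebra k R] [Group G]
    [TopologicalSpace G] where
  /-- the ideal -/
  m : Ideal R
  /-- the elements which are inverted -/
  u : ι → R
  /-- the action -/
  φ : G →* (R →+* R)
  φ_k : ∀ g a, φ g (algebraMap k R a) = algebraMap k R a
  φ_m : ∀ g, ∀ r ∈ m, φ g r ∈ m
  φ_lc : ∀ r, (fun g => φ g r) ∈ LC m G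
  u_m : ∀ j, u j ∈ m

variable {k R R' G ι : Type} [CommRing k] [CommRing R] [Algebra k R] [CommRing R'] [Algebra k R']
  [Group G] [TopologicalSpace G]

namespace Act

variable (A : Act k R G ι)

/-- a continuous semilinear action on the module `M` -/
structure Mod (M : Type u) [AddCommGroup M] [Module R M] where
  /-- the action -/
  ρ : G →* AddMonoid.End M
  semi : ∀ g (r : R) x, ρ g (r • x) = A.φ g r • ρ g x
  adm : ∀ x, (fun g => ρ g x) ∈ Cts A.m G M

theorem φ_mul (g g' : G) (r : R) : A.φ (g * g') r = A.φ g (A.φ g' r) := by rw [map_mul]; rfl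
@[simp] theorem φ_one (r : R) : A.φ 1 r = r := by rw [map_one]; rfl
@[simp] theorem φ_inv (g : G) (r : R) : A.φ g (A.φ g⁻¹ r) = r := by simp [← φ_mul]

theorem lc_φ {Y : Type} [TopologicalSpace Y] {γ : Y → G} (hγ : Continuous γ) {f : Y → R}
    (hf : f ∈ LC A.m Y) : (fun y => A.φ (γ y) (f y)) ∈ LC A.m Y := fun N => by
  rw [IsLocallyConstant.iff_eventually_eq]
  intro y
  filter_upwards [(hf N).eventually_eq y, (lc_comp (A.φ_lc (f y)) hγ N).eventually_eq y] with z a b
  rw [← b, Ideal.Quotient.eq, ← map_sub]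
  exact map_mem_pow _ (A.φ_m _) N (Ideal.Quotient.eq.1 a)

/-- equivariant continuous functions with values in `R` -/
def Gam (I : Type) : Subring ((I → G) → R) where
  carrier := {a | a ∈ LC A.m _ ∧ ∀ γ g, a (fun i => γ * g i) = A.φ γ (a g)}
  mul_mem' h h' := ⟨mul_mem h.1 h'.1, fun γ g => by simp [h.2, h'.2]⟩
  add_mem' h h' := ⟨add_mem h.1 h'.1, fun γ g => by simp [h.2, h'.2]⟩
  one_mem' := ⟨one_mem _, fun γ g => by simp⟩
  zero_mem' := ⟨zero_mem _, fun γ g => by simp⟩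
  neg_mem' h := ⟨neg_mem h.1, fun γ g => by simp [h.2]⟩

variable {I J : Type}

/-- the map at the vertex `i` -/
def vx (i : I) : R →+* A.Gam I :=
  (RingHom.pi fun g : I → G => A.φ (g i)).codRestrict _ fun r =>
    ⟨lc_comp (A.φ_lc r) (continuous_apply i), fun γ g => A.φ_mul γ (g i) r⟩

theorem vx_val (i : I) (r : R) (g) : (A.vx i r).1 g = A.φ (g i) r := rfl

/-- constants -/
def cst (I : Type) : k →+* A.Gam I :=
  (RingHom.pi fun _ : I → G => algebraMap k R).codRestrict _ fun a =>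
    ⟨lc_const _, fun γ _ => (A.φ_k γ a).symm⟩

theorem cst_val (a : k) (g) : (A.cst I a).1 g = algebraMap k R a := rfl

theorem vx_cst (i : I) (a : k) : A.vx i (algebraMap k R a) = A.cst I a :=
  Subtype.ext (funext fun _ => A.φ_k _ _)

/-- denominators -/
def Den (χ : I → Option ι) : Submonoid (A.Gam I) :=
  Submonoid.closure {s | ∃ i j, χ i = some j ∧ s = A.vx i (A.u j)}

theorem vx_mem {χ : I → Option ι} {i j} (h : χ i = some j) :
    A.vx i (A.u j) ∈ A.Den χ := Submonoid.subset_closure ⟨i, j, h, rfl⟩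

/-- precomposition -/
def pull (f : I → J) : A.Gam I →+* A.Gam J :=
  ((RingHom.pi fun g => Pi.evalRingHom _ (g ∘ f)).comp (A.Gam I).subtype).codRestrict _ fun a =>
    ⟨lc_comp a.2.1 (by fun_prop : Continuous fun g : J → G => g ∘ f),
      fun γ g => a.2.2 γ (g ∘ f)⟩

theorem pull_val (f : I → J) (a : A.Gam I) (g) : (A.pull f a).1 g = a.1 (g ∘ f) := rfl

theorem pull_vx (f : I → J) (i : I) (r : R) : A.pull f (A.vx i r) = A.vx (f i) r := rfl

theorem den_pull (f : I → J) (χ : J → Option ι) : ∀ s ∈ A.Den (χ ∘ f), A.pull f s ∈ A.Den χ :=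
  fun _ h => (Submonoid.closure_le (S := (A.Den χ).comap (A.pull f))).2
    (by rintro _ ⟨i, j, e, rfl⟩; exact A.vx_mem e) h

/-- maps of rings with actions -/
structure Hom (A : Act k R G ι) (A' : Act k R' G ι) where
  /-- the map -/
  τ : R →+* R'
  τ_k : ∀ a, τ (algebraMap k R a) = algebraMap k R' a
  τ_m : ∀ r ∈ A.m, τ r ∈ A'.m
  τ_φ : ∀ g r, τ (A.φ g r) = A'.φ g (τ r)
  τ_u : ∀ j, ∃ e, τ (A.u j) = A'.u j ^ (e + 1)

/-- the identity -/
@[reducible] def Hom.id : A.Hom A :=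
  ⟨RingHom.id R, fun _ => rfl, fun _ h => h, fun _ _ => rfl, fun _ => ⟨0, (pow_one _).symm⟩⟩

variable {A} {A' : Act k R' G ι}

/-- the map on cochains -/
def Hom.gam (t : A.Hom A') (I : Type) : A.Gam I →+* A'.Gam I :=
  ((RingHom.pi fun g => t.τ.comp (Pi.evalRingHom _ g)).comp (A.Gam I).subtype).codRestrict _
    fun a => ⟨lc_map t.τ t.τ_m a.2.1, fun γ g => (congrArg t.τ (a.2.2 γ g)).trans (t.τ_φ _ _)⟩

theorem Hom.gam_val (t : A.Hom A') (a : A.Gam I) (g) : (t.gam I a).1 g = t.τ (a.1 g) := rfl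

theorem Hom.gam_vx (t : A.Hom A') (i : I) (r : R) :
    t.gam I (A.vx i r) = A'.vx i (t.τ r) := Subtype.ext (funext fun _ => t.τ_φ _ _)

theorem Hom.den (t : A.Hom A') (χ : I → Option ι) : ∀ s ∈ A.Den χ, t.gam I s ∈ A'.Den χ :=
  fun _ h => (Submonoid.closure_le (S := (A'.Den χ).comap (t.gam I))).2 (by
    rintro _ ⟨i, j, e, rfl⟩
    obtain ⟨l, hl⟩ := t.τ_u j
    change t.gam I _ ∈ A'.Den χ
    rw [t.gam_vx, hl, map_pow]
    exact pow_mem (A'.vx_mem e) _) h

namespace Mod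

variable {M : Type u} [AddCommGroup M] [Module R M] (V : A.Mod M)

theorem ρ_mul (g g' : G) (x : M) : V.ρ (g * g') x = V.ρ g (V.ρ g' x) := by rw [map_mul]; rfl
@[simp] theorem ρ_one (x : M) : V.ρ 1 x = x := by rw [map_one]; rfl
@[simp] theorem ρ_inv (g : G) (x : M) : V.ρ g (V.ρ g⁻¹ x) = x := by simp [← ρ_mul]
@[simp] theorem inv_ρ (g : G) (x : M) : V.ρ g⁻¹ (V.ρ g x) = x := by simp [← ρ_mul]

theorem cts_ρ {Y : Type} [TopologicalSpace Y] {γ : Y → G} (hγ : Continuous γ) {F : Y → M}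
    (hF : F ∈ Cts A.m Y M) : (fun y => V.ρ (γ y) (F y)) ∈ Cts A.m Y M :=
  cts_map (fun y => V.ρ (γ y)) id (fun f hf x => by
    have := cts_smul (A.lc_φ hγ hf) (cts_comp (V.adm x) hγ)
    simp only [← V.semi] at this
    exact this) hF

/-- cochains -/
def Coch (I : Type) : Submodule (A.Gam I) ((I → G) → M) where
  carrier := {F | F ∈ Cts A.m _ M ∧ ∀ γ g, F (fun i => γ * g i) = V.ρ γ (F g)}
  add_mem' h h' := ⟨add_mem h.1 h'.1, fun γ g => by simp [h.2, h'.2]⟩
  zero_mem' := ⟨zero_mem _, fun γ g => by simp⟩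
  smul_mem' a F h := ⟨cts_smul a.2.1 h.1, fun γ g => by
    change a.1 _ • F _ = V.ρ γ (a.1 g • F g)
    rw [V.semi, a.2.2, h.2]⟩

theorem smul_val (a : A.Gam I) (F : V.Coch I) (g) : (a • F).1 g = a.1 g • F.1 g := rfl

/-- the map at the vertex `i` -/
def vx (i : I) : M →ₛₗ[A.vx i] V.Coch I where
  toFun x := ⟨fun g => V.ρ (g i) x, cts_comp (V.adm x) (continuous_apply i),
    fun γ g => V.ρ_mul γ (g i) x⟩
  map_add' _ _ := Subtype.ext (funext fun g => map_add (V.ρ (g i)) _ _)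
  map_smul' _ _ := Subtype.ext (funext fun g => V.semi (g i) _ _)

theorem vx_val (i : I) (x : M) (g) : (V.vx i x).1 g = V.ρ (g i) x := rfl

/-- precomposition -/
def pull (f : I → J) : V.Coch I →ₛₗ[A.pull f] V.Coch J where
  toFun F := ⟨fun g => F.1 (g ∘ f), cts_comp F.2.1 (by fun_prop), fun γ g => F.2.2 γ (g ∘ f)⟩
  map_add' _ _ := rfl
  map_smul' _ _ := rfl

theorem pull_val (f : I → J) (F : V.Coch I) (g) : (V.pull f F).1 g = F.1 (g ∘ f) := rfl

/-- cochains with denominators -/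
def Loc (χ : I → Option ι) : Type u := LocalizedModule (A.Den χ) (V.Coch I)

variable {χ : I → Option ι}

noncomputable instance : AddCommGroup (V.Loc χ) :=
  inferInstanceAs (AddCommGroup (LocalizedModule _ _))
noncomputable instance : Module (A.Gam I) (V.Loc χ) :=
  inferInstanceAs (Module _ (LocalizedModule _ _))
noncomputable instance : Module k (V.Loc χ) := Module.compHom _ (A.cst I)

variable {V}

/-- fractions -/
def fr (F : V.Coch I) (s : A.Den χ) : V.Loc χ := LocalizedModule.mk F s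

theorem fr_surj (x : V.Loc χ) : ∃ F s, x = fr F s :=
  LocalizedModule.induction_on (fun F s => ⟨F, s, rfl⟩) x

theorem fr_eq {F F' : V.Coch I} {s s' : A.Den χ} :
    fr F s = fr F' s' ↔ ∃ t : A.Den χ, t.1 • s'.1 • F = t.1 • s.1 • F' := LocalizedModule.mk_eq

@[simp] theorem zero_fr (s : A.Den χ) : fr (0 : V.Coch I) s = 0 := LocalizedModule.zero_mk s

theorem fr_eq_zero {F : V.Coch I} {s : A.Den χ} : fr F s = 0 ↔ ∃ t : A.Den χ, t.1 • F = 0 := by
  rw [← zero_fr 1, fr_eq]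
  simp only [OneMemClass.coe_one, one_smul, smul_zero]

theorem fr_add_fr (F F' : V.Coch I) (s s' : A.Den χ) :
    fr F s + fr F' s' = fr (s'.1 • F + s.1 • F') (s * s') := LocalizedModule.mk_add_mk

theorem fr_cancel (F : V.Coch I) (s t : A.Den χ) : fr (t.1 • F) (t * s) = fr F s :=
  LocalizedModule.mk_cancel_common_left t s F

theorem fr_add (F F' : V.Coch I) (s : A.Den χ) : fr (F + F') s = fr F s + fr F' s := by
  rw [fr_add_fr, ← smul_add, fr_cancel]

theorem smul_fr (a : A.Gam I) (F : V.Coch I) (s : A.Den χ) : a • fr F s = fr (a • F) s :=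
  LocalizedModule.smul'_mk a F s

theorem fr_congr {F F' : V.Coch I} (s : A.Den χ) (h : ∀ g, F.1 g = F'.1 g) : fr F s = fr F' s :=
  congrArg (fr · s) (Subtype.ext (funext h))

theorem k_smul (a : k) (x : V.Loc χ) : a • x = A.cst I a • x := rfl

variable {M' : Type v} [AddCommGroup M'] [Module R' M'] {V' : A'.Mod M'} in
/-- maps of fractions -/
noncomputable def lin {χ' : J → Option ι} {σ : A.Gam I →+* A'.Gam J}
    (h : ∀ s ∈ A.Den χ, σ s ∈ A'.Den χ') (hk : ∀ a, σ (A.cst I a) = A'.cst J a)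
    (f : V.Coch I →ₛₗ[σ] V'.Coch J) : V.Loc χ →ₗ[k] V'.Loc χ' where
  toFun := lmap h f
  map_add' := (lmap h f).map_add
  map_smul' a x := ((lmap h f).map_smulₛₗ (A.cst I a) x).trans (by rw [hk]; rfl)

variable (V)

/-- precomposition -/
noncomputable def lpull (f : I → J) (χ : J → Option ι) : V.Loc (χ ∘ f) →ₗ[k] V.Loc χ :=
  lin (A.den_pull f χ) (fun _ => rfl) (V.pull f)

theorem lpull_fr (f : I → J) (χ : J → Option ι) (F s) :
    V.lpull f χ (fr F s) = fr (V.pull f F) ⟨A.pull f s, A.den_pull f χ _ s.2⟩ := rfl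

/-- the complex with optional marks -/
@[reducible] noncomputable def Opt : Cos.{u} k where
  X n := ∀ χ : Fin (n + 1) → Option ι, V.Loc χ
  map f := LinearMap.pi fun χ => (V.lpull f χ).comp (LinearMap.proj (χ ∘ f))
  map_id n x := funext fun χ => by
    obtain ⟨F, s, e⟩ := fr_surj (x χ)
    exact (congrArg (V.lpull id χ) e).trans e.symm
  map_comp f g x := funext fun χ => by
    obtain ⟨F, s, e⟩ := fr_surj (x (χ ∘ g ∘ f))
    exact (congrArg (V.lpull (g ∘ f) χ) e).trans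
      (congrArg (fun y => V.lpull g χ (V.lpull f (χ ∘ g) y)) e).symm

/-- the elements which vanish if all vertices are marked -/
noncomputable def red : Cs.Sub V.Opt where
  S n := Submodule.pi {χ | ∀ i, χ i ≠ none} fun _ => ⊥
  stab f x hx χ h := by
    change V.lpull f χ (x (χ ∘ f)) = 0
    rw [show x (χ ∘ f) = 0 from hx _ fun i => h _, map_zero]

/-- the complex `N(M)` -/
@[reducible] noncomputable def N : Cos.{u} k := V.red.cos

theorem N_map {m n : ℕ} (f : Fin (m + 1) → Fin (n + 1)) (x : V.N.X m) (χ) :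
    (V.N.map f x).1 χ = V.lpull f χ (x.1 (χ ∘ f)) := rfl

/-- fractions with values in `P` at the vertex `i` -/
noncomputable def LS (P : Submodule R M) (i : I) (χ : I → Option ι) : Submodule k (V.Loc χ) where
  carrier := {x | ∃ F s, x = fr F s ∧ ∀ g, V.ρ (g i)⁻¹ (F.1 g) ∈ P}
  zero_mem' := ⟨0, 1, (zero_fr _).symm, fun g => by simp⟩
  add_mem' := by
    rintro _ _ ⟨F, s, rfl, h⟩ ⟨F', s', rfl, h'⟩
    refine ⟨_, _, fr_add_fr _ _ _ _, fun g => ?_⟩
    change V.ρ _ (s'.1.1 g • F.1 g + s.1.1 g • F'.1 g) ∈ P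
    rw [map_add, V.semi, V.semi]
    exact add_mem (P.smul_mem _ (h g)) (P.smul_mem _ (h' g))
  smul_mem' := by
    rintro a _ ⟨F, s, rfl, h⟩
    refine ⟨_, _, smul_fr _ _ _, fun g => ?_⟩
    rw [smul_val, V.semi]
    exact P.smul_mem _ (h g)

/-- the image of `N(P)` -/
noncomputable def NS (P : Submodule R M) (n : ℕ) : Submodule k (V.N.X n) :=
  (Submodule.pi Set.univ (V.LS P 0)).comap (V.red.S n).subtype

theorem mem_NS {P : Submodule R M} {n : ℕ} {x : V.N.X n} :
    x ∈ V.NS P n ↔ ∀ χ, ∃ F s, x.1 χ = fr F s ∧ ∀ g, V.ρ (g 0)⁻¹ (F.1 g) ∈ P :=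
  ⟨fun h χ => h χ trivial, fun h χ _ => h χ⟩

/-- stable submodules -/
def Stab (P : Submodule R M) : Prop := ∀ g, ∀ x ∈ P, V.ρ g x ∈ P

/-- the subcomplex of a stable submodule -/
noncomputable def Nsub (P : Submodule R M) (hP : V.Stab P) : Cs.Sub V.N where
  S := V.NS P
  stab f x hx := V.mem_NS.2 fun χ => by
    obtain ⟨F, s, e, h⟩ := V.mem_NS.1 hx (χ ∘ f)
    refine ⟨_, _, by rw [N_map, e, lpull_fr], fun g => hP _ _ ?_⟩
    have := hP ((g ∘ f) 0) _ (h (g ∘ f))
    rwa [ρ_inv] at this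

end Mod

end Act

open Act Act.Mod

variable {A : Act k R G ι} {A' : Act k R' G ι} {M : Type u} [AddCommGroup M] [Module R M]

/-- equivariant semilinear maps -/
structure SHom {M' : Type v} [AddCommGroup M'] [Module R' M'] (t : A.Hom A') (V : A.Mod M)
    (V' : A'.Mod M') where
  /-- the map -/
  Φ : M →ₛₗ[t.τ] M'
  equi : ∀ g x, Φ (V.ρ g x) = V'.ρ g (Φ x)

namespace SHom

variable {M' : Type v} [AddCommGroup M'] [Module R' M'] {t : A.Hom A'} {V : A.Mod M}
  {V' : A'.Mod M'} (f : SHom t V V')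

/-- the map on cochains -/
def coch (I : Type) : V.Coch I →ₛₗ[t.gam I] V'.Coch I where
  toFun F := ⟨fun g => f.Φ (F.1 g), cts_semi t.τ_m f.Φ F.2.1,
    fun γ g => by simp only [F.2.2, f.equi]⟩
  map_add' _ _ := Subtype.ext (funext fun _ => f.Φ.map_add _ _)
  map_smul' _ _ := Subtype.ext (funext fun _ => f.Φ.map_smulₛₗ _ _)

/-- the map on fractions -/
noncomputable def loc {I : Type} (χ : I → Option ι) : V.Loc χ →ₗ[k] V'.Loc χ :=
  lin (t.den χ) (fun a => Subtype.ext (funext fun _ => t.τ_k a)) (f.coch I)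

theorem coch_val {I : Type} (F : V.Coch I) (g) : (f.coch I F).1 g = f.Φ (F.1 g) := rfl

theorem loc_fr {I : Type} {χ : I → Option ι} (F s) :
    f.loc χ (fr F s) = fr (f.coch I F) ⟨t.gam I s, t.den χ _ s.2⟩ := rfl

/-- the map on `Opt` -/
noncomputable def opt : Cs.Hom V.Opt V'.Opt where
  app n := LinearMap.pi fun χ => (f.loc χ).comp (LinearMap.proj χ)
  nat g x := funext fun χ => by
    obtain ⟨F, s, e⟩ := fr_surj (x (χ ∘ g))
    exact (congrArg (fun y => f.loc χ (V.lpull g χ y)) e).trans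
      (congrArg (fun y => V'.lpull g χ (f.loc (χ ∘ g) y)) e).symm

/-- the map on `N` -/
noncomputable def N : Cs.Hom V.N V'.N := f.opt.res _ _ fun n x hx χ h => by
  change f.loc χ (x χ) = 0
  rw [show x χ = 0 from hx χ h, map_zero]

theorem N_val {n : ℕ} (x : V.N.X n) (χ) : (f.N.app n x).1 χ = f.loc χ (x.1 χ) := rfl

theorem N_maps {P : Submodule R M} {P' : Submodule R' M'} (h : ∀ x ∈ P, f.Φ x ∈ P') {n : ℕ}
    {x : V.N.X n} (hx : x ∈ V.NS P n) : f.N.app n x ∈ V'.NS P' n := V'.mem_NS.2 fun χ => by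
  obtain ⟨F, s, e, hF⟩ := V.mem_NS.1 hx χ
  exact ⟨_, _, by rw [N_val, e, loc_fr], fun g => f.equi _ _ ▸ h _ (hF g)⟩

end SHom

theorem N_ext {V : A.Mod M} {M' : Type v} [AddCommGroup M'] [Module R' M'] {V' : A'.Mod M'}
    {n : ℕ} (x : V.N.X n) {y z : V'.N.X n}
    (h : ∀ χ F s, x.1 χ = fr F s → y.1 χ = z.1 χ) : y = z :=
  Subtype.ext (funext fun χ => by
    obtain ⟨F, s, e⟩ := fr_surj (x.1 χ)
    exact h χ F s e)

theorem NS_bot (V : A.Mod M) (n : ℕ) : V.NS ⊥ n = ⊥ := eq_bot_iff.2 fun x hx =>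
  Subtype.ext (funext fun χ => by
    obtain ⟨F, s, e, hF⟩ := V.mem_NS.1 hx χ
    have : F = 0 := Subtype.ext (funext fun g => by
      rw [← V.ρ_inv (g 0) (F.1 g), (Submodule.mem_bot R).1 (hF g), map_zero]
      rfl)
    rw [e, this, zero_fr]
    rfl)

theorem NS_top (V : A.Mod M) (n : ℕ) : V.NS ⊤ n = ⊤ := eq_top_iff.2 fun x _ =>
  V.mem_NS.2 fun χ => (fr_surj (x.1 χ)).imp fun _ h => h.imp fun _ h => ⟨h, fun _ => trivial⟩

theorem NS_mono (V : A.Mod M) {P P' : Submodule R M} (h : P ≤ P') (n : ℕ) :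
    V.NS P n ≤ V.NS P' n := fun _ hx => V.mem_NS.2 fun χ =>
  (V.mem_NS.1 hx χ).imp fun _ h1 => h1.imp fun _ h2 => ⟨h2.1, fun g => h (h2.2 g)⟩

theorem NS_inf (V : A.Mod M) (P P' : Submodule R M) (n : ℕ) :
    V.NS (P ⊓ P') n = V.NS P n ⊓ V.NS P' n := by
  refine le_antisymm (le_inf (NS_mono V inf_le_left n) (NS_mono V inf_le_right n)) ?_
  refine fun x hx => V.mem_NS.2 fun χ => ?_
  obtain ⟨F, s, e, h⟩ := V.mem_NS.1 hx.1 χ
  obtain ⟨F', s', e', h'⟩ := V.mem_NS.1 hx.2 χ
  obtain ⟨t, ht⟩ := fr_eq.1 (e.symm.trans e')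
  refine ⟨t.1 • s'.1 • F, t * (s' * s), by rw [fr_cancel, fr_cancel, e], fun g => ⟨?_, ?_⟩⟩
  · simp only [smul_val, V.semi]
    exact P.smul_mem _ (P.smul_mem _ (h g))
  · simp only [ht, smul_val, V.semi]
    exact P'.smul_mem _ (P'.smul_mem _ (h' g))

theorem NS_d (V : A.Mod M) {P : Submodule R M} (hP : V.Stab P) {n : ℕ} {x : V.N.X n}
    (hx : x ∈ V.NS P n) : V.N.d n x ∈ V.NS P (n + 1) :=
  ((V.Nsub P hP).coe_d n ⟨x, hx⟩) ▸ ((V.Nsub P hP).cos.d n ⟨x, hx⟩).2

/-- equivariant linear maps -/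
abbrev LHom {M' : Type v} [AddCommGroup M'] [Module R M'] (V : A.Mod M) (V' : A.Mod M') :=
  SHom (Act.Hom.id A) V V'

section Op

variable [IsTopologicalGroup G] {M' : Type v} [AddCommGroup M'] [Module R M'] (V : A.Mod M)
  (V' : A.Mod M') (E : M →ₗ[R] M')

/-- apply `E` at the vertex `i` -/
def opc {I : Type} (i : I) : V.Coch I →ₗ[A.Gam I] V'.Coch I where
  toFun F := ⟨fun g => V'.ρ (g i) (E (V.ρ (g i)⁻¹ (F.1 g))),
    V'.cts_ρ (by fun_prop) (cts_semi (fun _ h => h) E (V.cts_ρ (by fun_prop) F.2.1)),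
    fun γ g => by simp only [F.2.2, mul_inv_rev, V.ρ_mul, inv_ρ, V'.ρ_mul]⟩
  map_add' _ _ := Subtype.ext (funext fun _ => by simp)
  map_smul' a F := Subtype.ext (funext fun g => by
    change V'.ρ _ (E (V.ρ _ (a.1 g • F.1 g))) = a.1 g • _
    rw [V.semi, map_smul, V'.semi, φ_inv])

theorem opc_val {I : Type} (i : I) (F : V.Coch I) (g) :
    (opc V V' E i F).1 g = V'.ρ (g i) (E (V.ρ (g i)⁻¹ (F.1 g))) := rfl

/-- apply `E` at the vertex `i` -/
noncomputable def opl {I : Type} (i : I) (χ : I → Option ι) : V.Loc χ →ₗ[k] V'.Loc χ :=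
  lin (σ := RingHom.id _) (fun _ h => h) (fun _ => rfl) (opc V V' E i)

theorem opl_fr {I : Type} (i : I) {χ : I → Option ι} (F s) :
    opl V V' E i χ (fr F s) = fr (opc V V' E i F) s := rfl

/-- apply `E` at the vertex `0` -/
noncomputable def op (n : ℕ) : V.N.X n →ₗ[k] V'.N.X n :=
  (LinearMap.pi fun χ => (opl V V' E 0 χ).comp (LinearMap.proj χ)).restrict fun x hx χ h => by
    change opl V V' E 0 χ (x χ) = 0
    rw [show x χ = 0 from hx χ h, map_zero]

theorem op_val {n : ℕ} (x : V.N.X n) (χ) : (op V V' E n x).1 χ = opl V V' E 0 χ (x.1 χ) := rfl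

theorem op_maps {P : Submodule R M} {P' : Submodule R M'} (h : ∀ x ∈ P, E x ∈ P') {n : ℕ}
    {x : V.N.X n} (hx : x ∈ V.NS P n) : op V V' E n x ∈ V'.NS P' n := V'.mem_NS.2 fun χ => by
  obtain ⟨F, s, e, hF⟩ := V.mem_NS.1 hx χ
  exact ⟨_, _, by rw [op_val, e, opl_fr], fun g => by
    have := h _ (hF g)
    rwa [← V'.inv_ρ (g 0) (E _)] at this⟩

theorem op_id {n : ℕ} (x : V.N.X n) : op V V LinearMap.id n x = x :=
  N_ext x fun χ F s e => by
    rw [op_val, e, opl_fr]
    exact fr_congr _ fun g => V.ρ_inv _ _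

theorem op_add (E' : M →ₗ[R] M') {n : ℕ} (x : V.N.X n) :
    op V V' (E + E') n x = op V V' E n x + op V V' E' n x :=
  N_ext x fun χ F s e => by
    change _ = (op V V' E n x).1 χ + (op V V' E' n x).1 χ
    rw [op_val, op_val, op_val, e, opl_fr, opl_fr, opl_fr, ← fr_add]
    refine fr_congr _ fun g => ?_
    exact map_add (V'.ρ (g 0)) _ _

theorem op_smul (a : k) {n : ℕ} (x : V.N.X n) :
    op V V' (algebraMap k R a • E) n x = a • op V V' E n x :=
  N_ext x fun χ F s e => by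
    change _ = a • (op V V' E n x).1 χ
    rw [op_val, op_val, e, opl_fr, opl_fr, k_smul, smul_fr]
    refine fr_congr _ fun g => ?_
    exact (V'.semi (g 0) _ _).trans (congrArg (· • _) (A.φ_k _ _))

theorem op_comp {M'' : Type w} [AddCommGroup M''] [Module R M''] (V'' : A.Mod M'')
    (E' : M' →ₗ[R] M'') {n : ℕ} (x : V.N.X n) :
    op V V'' (E' ∘ₗ E) n x = op V' V'' E' n (op V V' E n x) :=
  N_ext x fun χ F s e => by
    rw [op_val, op_val, op_val, e, opl_fr, opl_fr, opl_fr]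
    refine fr_congr _ fun g => ?_
    exact congrArg (fun y => V''.ρ (g 0) (E' y)) (V'.inv_ρ (g 0) _).symm

variable {V V'} in
theorem op_eq (f : LHom V V') {n : ℕ} (x : V.N.X n) : op V V' f.Φ n x = f.N.app n x :=
  N_ext x fun χ F s e => by
    rw [op_val, SHom.N_val, e, opl_fr, SHom.loc_fr]
    exact fr_congr _ fun g => (f.equi _ _).symm.trans (congrArg f.Φ (V.ρ_inv _ _))

theorem op_d (h : ∀ g x, E (V.ρ g x) = V'.ρ g (E x)) {n : ℕ} (x : V.N.X n) :
    op V V' E (n + 1) (V.N.d n x) = V'.N.d n (op V V' E n x) :=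
  (op_eq ⟨E, h⟩ _).trans (((⟨E, h⟩ : LHom V V').N.map_d n x).trans
    (congrArg _ (op_eq ⟨E, h⟩ x).symm))

/-- `op` as a map of rings -/
noncomputable def opR (n : ℕ) : Module.End R M →+* Module.End k (V.N.X n) :=
  RingHom.mk' ⟨⟨fun E => op V V E n, LinearMap.ext (op_id V)⟩,
    fun E E' => LinearMap.ext (op_comp V V E' V E)⟩ fun E E' => LinearMap.ext (op_add V V E E')

theorem opR_apply (E : Module.End R M) {n : ℕ} (x : V.N.X n) : opR V n E x = op V V E n x := rfl

variable {V V'} in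
theorem SHom.N_op {M₁ : Type w} [AddCommGroup M₁] [Module R' M₁] {M₁' : Type w} [AddCommGroup M₁']
    [Module R' M₁'] {t : A.Hom A'} {W : A'.Mod M₁} {W' : A'.Mod M₁'} (f : SHom t V W)
    (f' : SHom t V' W') (E' : M₁ →ₗ[R'] M₁') (h : ∀ x, f'.Φ (E x) = E' (f.Φ x)) {n : ℕ}
    (x : V.N.X n) : f'.N.app n (op V V' E n x) = op W W' E' n (f.N.app n x) :=
  N_ext x fun χ F s e => by
    rw [SHom.N_val, op_val, op_val, SHom.N_val, e, opl_fr, SHom.loc_fr, SHom.loc_fr, opl_fr]
    refine fr_congr _ fun g => ?_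
    exact (f'.equi (g 0) _).trans (congrArg _ ((h _).trans (congrArg E' (f.equi (g 0)⁻¹ _))))

end Op

end P261.NM
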