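import Vale.Agent.P261Z.NM.Ex
import Vale.Agent.P261Z.P.Defs
import Vale.Agent.P261Z.PB.Ser
import Vale.Agent.P261Z.Ser.Coef

/-!
# P261, block NM: the Frobenius map of `N` and the export `nf`
-/

set_option linter.all false

namespace P261.NM

open P261.Cs Act Act.Mod

universe u v

variable {k R R' G ι : Type} [CommRing k] [CommRing R] [Algebra k R] [CommRing R'] [Algebra k R']
  [Group G] [TopologicalSpace G] {A : Act k R G ι} {A' : Act k R' G ι}

/-- continuous functions to `R'` are generated by those to `R` and constants -/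
def PBs (τ : R →+* R') (m : Ideal R) (m' : Ideal R') : Prop :=
  ∀ (Y : Type) [TopologicalSpace Y], ∀ f ∈ LC m' Y, ∃ (β : Type) (_ : Fintype β) (c : β → Y → R)
    (b : β → R'), (∀ i, c i ∈ LC m Y) ∧ ∀ y, f y = ∑ i, τ (c i y) * b i

section Bij

variable {M : Type u} [AddCommGroup M] [Module R M] {M' : Type v} [AddCommGroup M'] [Module R' M']
  {t : A.Hom A'} {V : A.Mod M} {V' : A'.Mod M'} (f : SHom t V V')

theorem SHom.coch_surj (ht : PBs t.τ A.m A'.m) (h : Function.Bijective f.Φ) (I : Type) :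
    Function.Surjective (f.coch I) := fun F => by
  obtain ⟨H, h1, h2⟩ : ∃ H ∈ Cts A.m (I → G) M, ∀ g, f.Φ (H g) = F.1 g := by
    refine cts_ind (P := fun F => ∃ H ∈ Cts A.m (I → G) M, ∀ g, f.Φ (H g) = F g)
      ⟨0, zero_mem _, fun _ => map_zero _⟩ ?_ (fun a ha x => ?_) F.2.1
    · rintro _ _ ⟨H, h1, h2⟩ ⟨H', h1', h2'⟩
      exact ⟨H + H', add_mem h1 h1', fun g => by simp [h2, h2']⟩
    · obtain ⟨β, _, c, b, h1, h2⟩ := ht _ a ha
      choose z hz using fun i => h.2 (b i • x)
      refine ⟨∑ i, fun g => c i g • z i, sum_mem fun i _ => cts_smul (h1 i) (cts_const _),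
        fun g => ?_⟩
      simp only [Finset.sum_apply, map_sum, map_smulₛₗ, hz, h2, Finset.sum_smul, mul_smul]
  exact ⟨⟨H, h1, fun γ g => h.1 (by rw [f.equi, h2, h2, F.2.2])⟩, Subtype.ext (funext h2)⟩

theorem SHom.loc_surj {I : Type} (h : Function.Surjective (f.coch I)) (χ : I → Option ι) :
    Function.Surjective (f.loc χ) := fun y => by
  obtain ⟨F, s, rfl⟩ := fr_surj y
  obtain ⟨z, c, e⟩ := t.den_dvd s
  obtain ⟨H, hH⟩ := h (c • F)
  refine ⟨Mod.fr H z, ?_⟩
  rw [f.loc_fr, hH, fr_eq]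
  exact ⟨1, by simp only [e, smul_smul, mul_comm c]⟩

theorem SHom.N_surj (h : ∀ I, Function.Surjective (f.coch I)) (n : ℕ) :
    Function.Surjective (f.N.app n) := fun y => by
  have h1 : ∀ χ, ∃ z, ((∀ i, χ i ≠ none) → z = 0) ∧ f.loc χ z = y.1 χ := fun χ => by
    by_cases hχ : ∀ i, χ i ≠ none
    · exact ⟨0, fun _ => rfl, (map_zero _).trans (y.2 χ hχ).symm⟩
    · exact (f.loc_surj (h _) χ _).imp fun _ e => ⟨fun h => absurd h hχ, e⟩
  choose z h1 h2 using h1
  exact ⟨⟨z, h1⟩, Subtype.ext (funext h2)⟩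

theorem SHom.N_bij (ht : PBs t.τ A.m A'.m) (h : Function.Bijective f.Φ) (n : ℕ) :
    Function.Bijective (f.N.app n) := ⟨f.N_inj h.1 n, f.N_surj (f.coch_surj ht h) n⟩

end Bij

section Ser

open MvPowerSeries Vale.Agent.P261Z.Ev

variable {K : Type} [Field K] {c : ℕ}

theorem lc_iff {Y : Type} [TopologicalSpace Y] {f : Y → Ser.RR K c} :
    f ∈ LC (IX (Fin c) K) Y ↔ ∀ d, IsLocallyConstant fun y => coeff d (f y) := by
  refine ⟨fun h d => ?_, fun h N => ?_⟩ <;> rw [IsLocallyConstant.iff_eventually_eq] <;> intro y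
  · filter_upwards [(h (d.degree + 1)).eventually_eq y] with z hz
    exact sub_eq_zero.1 ((map_sub _ _ _).symm.trans
      (Ser.coeff_of_mem_pow (Ideal.Quotient.eq.1 hz) d (Nat.lt_succ_self _)))
  · filter_upwards [(Filter.eventually_all_finite (Finsupp.finite_of_degree_le N)).2
      fun d _ => (h d).eventually_eq y] with z hz
    exact Ideal.Quotient.eq.2 (mem_pow N _ fun d hd => by rw [map_sub, hz d hd.le, sub_self])

theorem pbs_ser {p : ℕ} [hp : Fact p.Prime] [Pf p K] :
    PBs (P261.fr p (Ser.RR K c)) (IX (Fin c) K) (IX (Fin c) K) := fun Y _ f hf => by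
  choose ψ h1 h2 using fun y => PB.exists_expand hp.out.ne_zero (f y)
  refine ⟨Fin c → Fin p, inferInstance, fun al y => map (rt p K) (ψ y al),
    fun al => ∏ i, X i ^ (al i : ℕ), fun al => lc_iff.2 fun d => ?_, fun y => ?_⟩
  · simp only [coeff_map, h1]
    exact (lc_iff.1 hf _).comp _
  · refine (h2 y).trans (Finset.sum_congr (Finset.ext fun _ => by simp) fun al _ => ?_)
    rw [fr_apply, PB.pow_p_series, MvPowerSeries.map_map,
      show (P261.fr p K).comp (rt p K) = RingHom.id K from RingHom.ext fr_rt, MvPowerSeries.map_id]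
    rfl

/-- the action on the ring of power series -/
noncomputable def ofSA (S : Ser.SA G K c) (k : Type) [CommRing k] [Algebra k K] :
    Act k (Ser.RR K c) G (Fin c) where
  m := IX (Fin c) K
  u := X
  φ := ⟨⟨fun g => S.φ g, RingHom.ext S.φ_one⟩, fun g g' => RingHom.ext (S.φ_mul g g')⟩
  φ_k g a := by
    rw [IsScalarTower.algebraMap_apply k K (Ser.RR K c)]
    exact (S.φ g).commutes _
  φ_m g r hr := by
    refine (Ideal.span_le (I := (IX (Fin c) K).comap (S.φ g))).2 ?_ hr
    rintro _ ⟨i, rfl⟩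
    have h := add_mem (Ideal.span_mono (Set.image_subset_range _ _) (S.tri g i))
      ((IX (Fin c) K).mul_mem_left (S.b i g) (X_mem i))
    rwa [sub_add_cancel] at h
  φ_lc := S.φ_lc
  u_m := X_mem

theorem ofSA_φ (S : Ser.SA G K c) (k : Type) [CommRing k] [Algebra k K] (g r) :
    (ofSA S k).φ g r = S.φ g r := rfl

instance (S : Ser.SA G K c) (k : Type) [CommRing k] [Algebra k K] :
    IsAdicComplete (ofSA S k).m (Ser.RR K c) :=
  inferInstanceAs (IsAdicComplete (IX (Fin c) K) _)

end Ser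

section Fro

variable {p : ℕ} [hp : Fact p.Prime] [Ch p R] [Algebra (ZMod p) R] (A : Act (ZMod p) R G ι)

/-- the Frobenius map of the base -/
@[reducible] noncomputable def Act.frH : A.Hom A where
  τ := P261.fr p R
  τ_k a := by rw [fr_apply, ← map_pow, ZMod.pow_card]
  τ_m r h := A.m.pow_mem_of_mem h p hp.out.pos
  τ_φ g r := (map_pow _ _ _).symm
  τ_u j := ⟨p - 1, by rw [Nat.sub_add_cancel hp.out.pos]; rfl⟩

variable {A} {AA : Type} [CommRing AA] [Algebra R AA] [Pf p AA] (V : A.Mod AA)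
  {Φ : G → AA →+* AA} (hV : ∀ g x, V.ρ g x = Φ g x)

/-- the Frobenius map of the algebra -/
noncomputable def frS : SHom A.frH V V where
  Φ := ⟨⟨fun x => x ^ p, add_pow_p⟩, fun r x => smul_pow r x p⟩
  equi g x := by simp only [hV]; exact (map_pow _ _ _).symm

variable [Finite ι] [IsTopologicalGroup G] [IsNoetherianRing R] [IsAdicComplete A.m R]
  (hP : PBs (P261.fr p R) A.m A.m)

/-- the export to block P -/
noncomputable def nf : P.NF p R Φ V.N where
  NS := V.NS
  op := opR V
  NS_comap P E n x := (NS_comap V V E P).symm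
  NS_mono P P' n h := NS_mono V h n
  NS_inf P P' n := (NS_inf V P P' n).ge
  NS_bot := NS_bot V
  NS_top := NS_top V
  NS_sup P hP _ h n x := NS_sup V hP.directed_le (by
    rw [show ⨆ i, P i = ⊤ from eq_top_iff.2 fun a _ => (h a).elim fun i hi =>
      Submodule.mem_iSup_of_mem i hi, NS_top]
    trivial)
  NS_map P hP _ _ f x hx := (V.Nsub P fun g y hy => hV g y ▸ hP g y hy).stab f hx
  op_map P hP E h _ _ f x hx :=
    op_map V V E (fun g y hy => hV g y ▸ hP g y hy) (by simpa only [hV] using h) f hx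
  fr := (frS V hV).N
  fr_bij := (frS V hV).N_bij hP Pf.bij
  fr_NS P n x := by
    rw [← SHom.NS_comap]
    exact Iff.of_eq (congrArg (fun Q => x ∈ V.NS Q n) (Submodule.ext fun y => by
      rw [P261.P.mem_rtM, pow_one]; rfl))
  fr_op E E' h n x := (SHom.N_op E' (frS V hV) (frS V hV) E (fun y => (h y).symm) x).symm

theorem nf_NS : (nf V hV hP).NS = V.NS := rfl

theorem nf_op (n : ℕ) (E : Module.End R AA) : (nf V hV hP).op n E = op V V E n := rfl

theorem nf_fr : (nf V hV hP).fr = (frS V hV).N := rfl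

end Fro

end P261.NM
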